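import Vale.Agent.P130.Lebesgue.RankOne.Levels

/-!
# Functions with the same integral on all levels of every tower are constant
-/

noncomputable section

namespace Vale.Agent.P130.Lebesgue.Skyscraper

open Finset MeasureTheory Filter
open scoped Topology

variable {R : RankOne}

lemma P_le_h : ∀ n, P R n ≤ R.h n
  | 0 => by simp [P_zero, RankOne.h]
  | n + 1 => by
    rw [P_succ, RankOne.h, mul_comm]
    exact le_add_right (Nat.mul_le_mul_left _ (P_le_h n))

lemma tower_monotone : Monotone (tower R) :=
  monotone_nat_of_le_succ tower_mono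

lemma measurableSet_tower (n : ℕ) : MeasurableSet (tower R n) :=
  MeasurableSet.biUnion (Finset.countable_toSet _) fun _ hl =>
    measurableSet_level (Finset.mem_range.1 hl)

lemma base_eq_iUnion (n : ℕ) :
    base R n = ⋃ j ∈ range (R.p n), level R (n + 1) (R.pos n j) := by
  ext q
  rw [mem_base_iff]
  simp [Finset.mem_range]

lemma pos_injective (n : ℕ) : Function.Injective (R.pos n) :=
  (strictMono_nat_of_lt_succ fun j => by
    rw [pos_succ]
    have := h_pos (R := R) n
    omega).injective

theorem eq_const_of_levels {μ : Measure (Sky R)} [IsProbabilityMeasure μ] {ν : ℕ → ℝ}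
    (hν : ∀ n l, l < R.h n → μ.real (level R n l) = ν n) {f : Sky R → ℂ} (hf : MemLp f 2 μ)
    (h : ∀ n l, l < R.h n → ∫ x in level R n l, f x ∂μ = ∫ x in base R n, f x ∂μ) :
    ∃ c : ℂ, f =ᵐ[μ] fun _ => c := by
  have hfi : Integrable f μ := hf.integrable one_le_two
  set g : Sky R → ℂ := fun x => f x - ∫ y, f y ∂μ with hg
  have hgi : Integrable g μ := hfi.sub (integrable_const _)
  have hg0 : ∫ x, g x ∂μ = 0 := by
    rw [hg, integral_sub hfi (integrable_const _), integral_const]
    simp
  set a : ℕ → ℂ := fun n => (∫ x in base R n, f x ∂μ) - ν n • ∫ y, f y ∂μ with ha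
  have hlev : ∀ n l, l < R.h n → ∫ x in level R n l, g x ∂μ = a n := by
    intro n l hl
    rw [hg, integral_sub hfi.integrableOn (integrable_const _), setIntegral_const, hν n l hl,
      h n l hl]
  have hlimit : ∀ C : Set (Sky R), MeasurableSet C →
      Tendsto (fun m => ∫ x in C ∩ tower R m, g x ∂μ) atTop (𝓝 (∫ x in C, g x ∂μ)) := by
    intro C hC
    have h1 := tendsto_setIntegral_of_monotone (μ := μ) (f := g)
      (s := fun m => C ∩ tower R m) (fun m => hC.inter (measurableSet_tower m))
      (fun m m' hm => Set.inter_subset_inter_right _ (tower_monotone hm)) hgi.integrableOn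
    rwa [← Set.inter_iUnion, iUnion_tower, Set.inter_univ] at h1
  have htow : ∀ n, ∫ x in tower R n, g x ∂μ = (R.h n : ℂ) * a n := by
    intro n
    rw [tower, integral_biUnion_finset _ (fun l hl => measurableSet_level (Finset.mem_range.1 hl))
      (fun l hl l' hl' hne => level_disjoint (Finset.mem_range.1 hl) (Finset.mem_range.1 hl') hne)
      (fun l _ => hgi.integrableOn), Finset.sum_congr rfl fun l hl =>
        hlev n l (Finset.mem_range.1 hl)]
    simp
  have hstep : ∀ n, a n = (R.p n : ℂ) * a (n + 1) := by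
    intro n
    have h0 : ∫ x in base R n, g x ∂μ = a n := by
      rw [← hlev n 0 (h_pos n), level]
      simp
    rw [← h0, base_eq_iUnion, integral_biUnion_finset _
      (fun j hj => measurableSet_level (pos_lt (Finset.mem_range.1 hj)))
      (fun j hj j' hj' hne => level_disjoint (pos_lt (Finset.mem_range.1 hj))
        (pos_lt (Finset.mem_range.1 hj')) fun he => hne (pos_injective n he))
      (fun j _ => hgi.integrableOn), Finset.sum_congr rfl fun j hj =>
        hlev (n + 1) _ (pos_lt (Finset.mem_range.1 hj))]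
    simp
  have hmult : ∀ n m, n ≤ m → (P R n : ℂ) * a n = (P R m : ℂ) * a m := by
    intro n m hnm
    induction m, hnm using Nat.le_induction with
    | base => rfl
    | succ m _ ih => rw [ih, hstep m, P_succ]; push_cast; ring
  have hzero : ∀ n, a n = 0 := by
    intro n
    have h1 := (hlimit Set.univ MeasurableSet.univ).norm
    simp only [Set.univ_inter, setIntegral_univ, hg0, norm_zero, htow] at h1
    have h2 : ‖(P R n : ℂ) * a n‖ ≤ 0 := by
      refine ge_of_tendsto h1 (eventually_atTop.2 ⟨n, fun m hm => ?_⟩)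
      rw [hmult n m hm, norm_mul, norm_mul, Complex.norm_natCast, Complex.norm_natCast]
      exact mul_le_mul_of_nonneg_right (by exact_mod_cast P_le_h m) (norm_nonneg _)
    have h3 : (P R n : ℂ) * a n = 0 := norm_le_zero_iff.1 h2
    exact (mul_eq_zero.1 h3).resolve_left (by exact_mod_cast (P_pos R n).ne')
  have hcyl : ∀ n i m : ℕ, ∫ x in {q : Sky R | q.1.1.1 n = i ∧ q.1.2 = m}, g x ∂μ = 0 := by
    intro n i m
    set C := {q : Sky R | q.1.1.1 n = i ∧ q.1.2 = m} with hC
    refine tendsto_nhds_unique (hlimit C (measurableSet_floorCyl n i m))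
      (tendsto_const_nhds.congr' (eventually_atTop.2 ⟨n, fun N hN => ?_⟩))
    classical
    set s := (range (R.h N)).filter fun l => (level R N l ∩ C).Nonempty with hs
    have hset : C ∩ tower R N = ⋃ l ∈ s, level R N l := by
      ext q
      simp only [tower, Set.mem_inter_iff, Set.mem_iUnion, exists_prop, hs, Finset.mem_filter,
        Finset.mem_range]
      constructor
      · rintro ⟨hq, l, hl, hql⟩
        exact ⟨l, ⟨hl, q, hql, hq⟩, hql⟩
      · rintro ⟨l, ⟨hl, w, hwl, hw⟩, hql⟩
        refine ⟨?_, l, hl, hql⟩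
        obtain ⟨i', m', -, -, he⟩ := level_eq (R := R) hl
        rw [he] at hwl hql
        refine ⟨?_, hql.2.trans (hwl.2.symm.trans hw.2)⟩
        rw [← q.1.1.mod_eq hN, hql.1, ← hwl.1, w.1.1.mod_eq hN, hw.1]
    have hls : ∀ l ∈ s, l < R.h N := fun l hl =>
      Finset.mem_range.1 (Finset.mem_of_mem_filter l hl)
    show (0 : ℂ) = ∫ x in C ∩ tower R N, g x ∂μ
    rw [hset, integral_biUnion_finset _ (fun l hl => measurableSet_level (hls l hl))
      (fun l hl l' hl' hne => level_disjoint (hls l hl) (hls l' hl') hne)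
      (fun l _ => hgi.integrableOn)]
    refine (Finset.sum_eq_zero fun l hl => ?_).symm
    rw [hlev N l (hls l hl), hzero]
  have hall : ∀ s : Set (Sky R), MeasurableSet s → ∫ x in s, g x ∂μ = 0 := by
    intro s hs
    induction s, hs using MeasurableSpace.induction_on_inter (generateFrom_cyl (R := R)) (by
      rintro s ⟨n, i, m, rfl⟩ t ⟨n', i', m', rfl⟩ ⟨w, hw, hw'⟩
      rcases le_total n n' with hle | hle
      · refine ⟨n', i', m', Set.ext fun q => ⟨fun hq => hq.2, fun hq => ⟨⟨?_, ?_⟩, hq⟩⟩⟩
        · rw [← q.1.1.mod_eq hle, hq.1, ← hw'.1, w.1.1.mod_eq hle, hw.1]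
        · rw [hq.2, ← hw'.2, hw.2]
      · refine ⟨n, i, m, Set.ext fun q => ⟨fun hq => hq.1, fun hq => ⟨hq, ?_, ?_⟩⟩⟩
        · rw [← q.1.1.mod_eq hle, hq.1, ← hw.1, w.1.1.mod_eq hle, hw'.1]
        · rw [hq.2, ← hw.2, hw'.2]) with
    | empty => simp
    | basic t ht =>
      obtain ⟨n, i, m, rfl⟩ := ht
      exact hcyl n i m
    | compl t htm iht => rw [setIntegral_compl htm hgi, iht, hg0, sub_zero]
    | iUnion t htd htm iht =>
      rw [integral_iUnion htm htd hgi.integrableOn]
      simp [iht]
  refine ⟨∫ y, f y ∂μ, ?_⟩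
  have := hgi.ae_eq_zero_of_forall_setIntegral_eq_zero fun s hs _ => hall s hs
  filter_upwards [this] with x hx
  exact sub_eq_zero.1 hx

end Vale.Agent.P130.Lebesgue.Skyscraper
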