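import Vale.Agent.P130.Lebesgue.RankOne.Defs

/-!
# The measure of the skyscraper

The uniform measure of the odometer, its invariance under translations, and the invariant measure
it induces on the skyscraper.
-/

noncomputable section

namespace Vale.Agent.P130.Lebesgue.Skyscraper

open MeasureTheory Set
open scoped ENNReal

variable (R : RankOne)

/-- The uniform law of one digit. -/
def digitLaw (i : ℕ) : Measure (Fin (R.p i)) :=
  haveI : Nonempty (Fin (R.p i)) := ⟨⟨0, p_pos R i⟩⟩
  (PMF.uniformOfFintype (Fin (R.p i))).toMeasure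

instance isProbabilityMeasure_digitLaw (i : ℕ) : IsProbabilityMeasure (digitLaw R i) := by
  unfold digitLaw; infer_instance

lemma digitLaw_singleton (i : ℕ) (c : Fin (R.p i)) :
    digitLaw R i {c} = (R.p i : ℝ≥0∞)⁻¹ := by
  have : Nonempty (Fin (R.p i)) := ⟨c⟩
  rw [digitLaw, PMF.toMeasure_apply_singleton _ _ (measurableSet_singleton c)]
  simp

/-- The residues of a digit sequence. -/
def residues (d : ∀ i, Fin (R.p i)) (k : ℕ) : ℕ :=
  ∑ i ∈ Finset.range k, (d i : ℕ) * P R i

lemma measurable_residues : Measurable (residues R) :=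
  measurable_pi_iff.2 fun k => Finset.measurable_sum _ fun i _ =>
    (measurable_from_top (f := fun c : Fin (R.p i) => (c : ℕ) * P R i)).comp (measurable_pi_apply i)

lemma residues_lt (d : ∀ i, Fin (R.p i)) (k : ℕ) : residues R d k < P R k := by
  induction k with
  | zero => simp [residues, P_zero]
  | succ k ih =>
    rw [residues, Finset.sum_range_succ, P_succ]
    have h : ((d k : ℕ) + 1) * P R k ≤ R.p k * P R k :=
      Nat.mul_le_mul_right _ (d k).isLt
    rw [residues] at ih
    nlinarith

lemma residues_succ (d : ∀ i, Fin (R.p i)) (k : ℕ) :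
    residues R d (k + 1) = residues R d k + P R k * (d k : ℕ) := by
  rw [residues, Finset.sum_range_succ, mul_comm (P R k)]
  rfl

lemma residues_compat (d : ∀ i, Fin (R.p i)) (k : ℕ) :
    residues R d (k + 1) % P R k = residues R d k := by
  rw [residues_succ, Nat.add_mul_mod_self_left, Nat.mod_eq_of_lt (residues_lt R d k)]

/-- The digits of a residue. -/
def digitOf (i j : ℕ) : Fin (R.p j) := ⟨i / P R j % R.p j, Nat.mod_lt _ (p_pos R j)⟩

lemma residues_eq_iff (d : ∀ i, Fin (R.p i)) {n i : ℕ} (hi : i < P R n) :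
    residues R d n = i ↔ ∀ j < n, d j = digitOf R i j := by
  induction n generalizing i with
  | zero =>
    rw [P_zero] at hi
    simp [residues, show i = 0 by omega]
  | succ n ih =>
    have hlt := residues_lt R d n
    have hmod : i % P R n < P R n := Nat.mod_lt _ (P_pos R n)
    have hdiv : i / P R n < R.p n := by
      rw [Nat.div_lt_iff_lt_mul (P_pos R n), mul_comm, ← P_succ]
      exact hi
    have hold : ∀ j < n, digitOf R (i % P R n) j = digitOf R i j := fun j hj => by
      refine Fin.ext ?_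
      show i % P R n / P R j % R.p j = i / P R j % R.p j
      obtain ⟨c, hc⟩ := P_dvd R (Nat.succ_le_of_lt hj)
      rw [P_succ, mul_assoc] at hc
      rw [hc, Nat.mod_mul_right_div_self, Nat.mod_mod_of_dvd _ (dvd_mul_right _ _)]
    constructor
    · intro h j hj
      rw [residues_succ] at h
      have h1 : i % P R n = residues R d n := by
        rw [← h, Nat.add_mul_mod_self_left, Nat.mod_eq_of_lt hlt]
      rcases Nat.lt_succ_iff_lt_or_eq.1 hj with hj | rfl
      · rw [← hold j hj]
        exact (ih hmod).1 h1.symm j hj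
      · refine Fin.ext ?_
        show (d j : ℕ) = i / P R j % R.p j
        rw [Nat.mod_eq_of_lt hdiv, ← h, Nat.add_mul_div_left _ _ (P_pos R j),
          Nat.div_eq_of_lt hlt, zero_add]
    · intro h
      have h1 : residues R d n = i % P R n :=
        (ih hmod).2 fun j hj => (h j (Nat.lt_succ_of_lt hj)).trans (hold j hj).symm
      have h2 : (d n : ℕ) = i / P R n := by
        rw [h n (Nat.lt_succ_self n)]
        exact Nat.mod_eq_of_lt hdiv
      rw [residues_succ, h1, h2, Nat.mod_add_div]

/-- The law of the residues. -/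
def law : Measure (ℕ → ℕ) := (Measure.infinitePi (digitLaw R)).map (residues R)

instance isProbabilityMeasure_law : IsProbabilityMeasure (law R) :=
  Measure.isProbabilityMeasure_map (measurable_residues R).aemeasurable

lemma law_cyl {n i : ℕ} (hi : i < P R n) :
    law R {x | x n = i} = (P R n : ℝ≥0∞)⁻¹ := by
  have hset : residues R ⁻¹' {x : ℕ → ℕ | x n = i} =
      Set.pi (Finset.range n : Set ℕ) fun j => {digitOf R i j} := by
    ext d
    simp [residues_eq_iff R d hi]
  have hms : MeasurableSet {x : ℕ → ℕ | x n = i} :=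
    (measurable_pi_apply (X := fun _ : ℕ => ℕ) n) (measurableSet_singleton (α := ℕ) i)
  rw [law, Measure.map_apply (measurable_residues R) hms, hset,
    Measure.infinitePi_pi _ (fun j _ => measurableSet_singleton _)]
  simp only [digitLaw_singleton]
  rw [P, Nat.cast_prod]
  exact (ENNReal.prod_inv_distrib fun a _ b _ _ => Or.inl (by exact_mod_cast (p_pos R a).ne')).symm

lemma two_pow_le_P (k : ℕ) : 2 ^ k ≤ P R k := by
  have h := Finset.pow_card_le_prod (Finset.range k) R.p 2 (fun i _ => R.two_le i)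
  simpa [P] using h

lemma eq_zero_of_le_inv_P {c : ℝ≥0∞} (h : ∀ k, c ≤ (P R k : ℝ≥0∞)⁻¹) : c = 0 := by
  by_contra hc
  obtain ⟨k, hk⟩ := ENNReal.exists_nat_gt (ENNReal.inv_ne_top.2 hc)
  have h1 : (P R k : ℝ≥0∞) ≤ c⁻¹ := ENNReal.le_inv_iff_le_inv.2 (h k)
  have h2 : (k : ℝ≥0∞) ≤ P R k := by
    exact_mod_cast (Nat.lt_two_pow_self).le.trans (two_pow_le_P R k)
  exact absurd hk (not_lt.2 (h2.trans h1))

lemma law_isPoint : law R {x : ℕ → ℕ | IsPoint R x}ᶜ = 0 := by
  have hsub : {x : ℕ → ℕ | IsPoint R x}ᶜ ⊆ {x | ∀ k, x (k + 1) % P R k = x k}ᶜ ∪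
      ⋃ z : ℤ, ⋂ k, {x | x k = (z % (P R k : ℤ)).toNat} := by
    intro x hx
    by_cases hc : ∀ k, x (k + 1) % P R k = x k
    · right
      have hz : ¬ ∀ z : ℤ, ∃ k, (x k : ℤ) ≠ z % (P R k : ℤ) := fun h => hx ⟨hc, h⟩
      push Not at hz
      obtain ⟨z, hz⟩ := hz
      refine mem_iUnion.2 ⟨z, mem_iInter.2 fun k => ?_⟩
      show x k = _
      rw [← hz k, Int.toNat_natCast]
    · left
      exact hc
  refine measure_mono_null hsub (measure_union_null ?_ (measure_iUnion_null fun z => ?_))
  · have hm : MeasurableSet {x : ℕ → ℕ | ∀ k, x (k + 1) % P R k = x k} := by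
      rw [Set.ofPred_forall]
      exact MeasurableSet.iInter fun k => measurableSet_eq_fun
        ((measurable_from_nat (f := fun n : ℕ => n % P R k)).comp (measurable_pi_apply (k + 1)))
        (measurable_pi_apply k)
    rw [law, Measure.map_apply (measurable_residues R) hm.compl]
    have : residues R ⁻¹' {x : ℕ → ℕ | ∀ k, x (k + 1) % P R k = x k}ᶜ = ∅ :=
      eq_empty_of_forall_notMem fun d hd => hd fun k => residues_compat R d k
    rw [this, measure_empty]
  · refine eq_zero_of_le_inv_P R fun k => (measure_mono (iInter_subset _ k)).trans (law_cyl R ?_).le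
    rw [Int.toNat_lt (Int.emod_nonneg _ (by exact_mod_cast (P_pos R k).ne'))]
    exact Int.emod_lt_of_pos _ (by exact_mod_cast P_pos R k)

/-- The uniform measure of the odometer. -/
def mu0 : Measure (Om R) := (law R).comap Subtype.val

lemma mu0_apply (A : Set (Om R)) : mu0 R A = law R (Subtype.val '' A) :=
  (MeasurableEmbedding.subtype_coe measurableSet_isPoint).comap_apply _ _

variable {R}

/-- A cylinder of the odometer. -/
def cyl (n i : ℕ) : Set (Om R) := {ω | ω.1 n = i}

lemma measurableSet_cyl (n i : ℕ) : MeasurableSet (cyl (R := R) n i) :=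
  measurable_coord n (measurableSet_singleton i)

lemma mu0_cyl {n i : ℕ} (hi : i < P R n) : mu0 R (cyl n i) = (P R n : ℝ≥0∞)⁻¹ := by
  rw [mu0_apply, show Subtype.val '' cyl (R := R) n i =
    {x : ℕ → ℕ | IsPoint R x} ∩ {x | x n = i} from Set.ext fun x => by
      simp [cyl, and_comm]]
  rw [Set.inter_comm, measure_inter_conull (law_isPoint R), law_cyl R hi]

lemma cyl_zero : cyl (R := R) 0 0 = univ := by
  refine eq_univ_of_forall fun ω => ?_
  have := ω.lt 0
  rw [P_zero] at this
  show ω.1 0 = 0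
  omega

instance isProbabilityMeasure_mu0 : IsProbabilityMeasure (mu0 R) := by
  refine ⟨?_⟩
  rw [← cyl_zero, mu0_cyl (P_pos R 0), P_zero]
  simp

lemma mu0_singleton (ω : Om R) : mu0 R {ω} = 0 :=
  eq_zero_of_le_inv_P R fun k =>
    (measure_mono (Set.singleton_subset_iff.2 (show ω ∈ cyl k (ω.1 k) from rfl))).trans
      (mu0_cyl (ω.lt k)).le

lemma shift_preimage_cyl (z : ℤ) {n i : ℕ} (hi : i < P R n) :
    shift z ⁻¹' cyl (R := R) n i = cyl n (((i : ℤ) - z) % (P R n : ℤ)).toNat := by
  have hP : (0 : ℤ) < P R n := by exact_mod_cast P_pos R n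
  ext ω
  show (shift z ω).1 n = i ↔ ω.1 n = _
  have h1 : (ω.1 n : ℤ) % P R n = ω.1 n :=
    Int.emod_eq_of_lt (by positivity) (by exact_mod_cast ω.lt n)
  have h2 : (i : ℤ) % P R n = i := Int.emod_eq_of_lt (by positivity) (by exact_mod_cast hi)
  rw [← Int.natCast_inj, shift_cast, ← Int.natCast_inj (m := ω.1 n),
    Int.toNat_of_nonneg (Int.emod_nonneg _ hP.ne')]
  constructor
  · intro h
    rw [← h, Int.emod_sub_emod, add_sub_cancel_right, h1]
  · intro h
    rw [h, Int.emod_add_emod, sub_add_cancel, h2]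

lemma map_shift (z : ℤ) : (mu0 R).map (shift z) = mu0 R := by
  have : IsProbabilityMeasure ((mu0 R).map (shift z)) :=
    Measure.isProbabilityMeasure_map (measurable_shift z).aemeasurable
  refine ext_of_generate_finite (insert ∅ {s | ∃ n i, s = cyl (R := R) n i}) ?_ ?_ ?_ (by simp)
  · refine le_antisymm ?_ ?_
    · show MeasurableSpace.comap _ MeasurableSpace.pi ≤ _
      simp only [MeasurableSpace.pi, MeasurableSpace.comap_iSup, MeasurableSpace.comap_comp]
      refine iSup_le fun n => ?_
      rintro s ⟨t, -, rfl⟩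
      rw [show ((fun b : ℕ → ℕ => b n) ∘ Subtype.val) ⁻¹' t = ⋃ i ∈ t, cyl (R := R) n i from
        Set.ext fun ω => by simp [cyl]]
      exact MeasurableSet.biUnion t.to_countable fun i _ =>
        MeasurableSpace.measurableSet_generateFrom (Or.inr ⟨n, i, rfl⟩)
    · refine MeasurableSpace.generateFrom_le ?_
      rintro s (rfl | ⟨n, i, rfl⟩)
      · exact MeasurableSet.empty
      · exact measurableSet_cyl n i
  · rintro s (rfl | ⟨n, i, rfl⟩) t (rfl | ⟨m, j, rfl⟩) hne
    · simp at hne
    · simp at hne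
    · simp at hne
    · obtain ⟨ω, hω, hω'⟩ := hne
      simp only [cyl, Set.mem_ofPred_eq] at hω hω'
      rcases le_total n m with h | h
      · refine Or.inr ⟨m, j, Set.ext fun w => ⟨fun hw => hw.2, fun hw => ⟨?_, hw⟩⟩⟩
        simp only [cyl, Set.mem_ofPred_eq] at hw ⊢
        rw [← w.mod_eq h, hw, ← hω', ω.mod_eq h, hω]
      · refine Or.inr ⟨n, i, Set.ext fun w => ⟨fun hw => hw.1, fun hw => ⟨hw, ?_⟩⟩⟩
        simp only [cyl, Set.mem_ofPred_eq] at hw ⊢
        rw [← w.mod_eq h, hw, ← hω, ω.mod_eq h, hω']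
  · rintro s (rfl | ⟨n, i, rfl⟩)
    · simp
    · rw [Measure.map_apply (measurable_shift z) (measurableSet_cyl n i)]
      by_cases hi : i < P R n
      · rw [shift_preimage_cyl z hi, mu0_cyl hi, mu0_cyl]
        rw [Int.toNat_lt (Int.emod_nonneg _ (by exact_mod_cast (P_pos R n).ne'))]
        exact Int.emod_lt_of_pos _ (by exact_mod_cast P_pos R n)
      · have he : cyl (R := R) n i = ∅ :=
          eq_empty_of_forall_notMem fun ω hω => hi (hω ▸ ω.lt n)
        rw [he, preimage_empty]

variable (R) in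
/-- The measure of the skyscraper, before normalisation. -/
def skyMeasure : Measure (Sky R) := ((mu0 R).prod Measure.count).comap Subtype.val

/-- The section of a set on floor `l`. -/
def floorSet (l : ℕ) (A : Set (Sky R)) : Set (Om R) :=
  (fun ω => ((ω, l) : Om R × ℕ)) ⁻¹' (Subtype.val '' A)

lemma mem_floorSet {l : ℕ} {A : Set (Sky R)} {ω : Om R} :
    ω ∈ floorSet l A ↔ ∃ h : l < roof ω, (⟨(ω, l), h⟩ : Sky R) ∈ A := by
  constructor
  · rintro ⟨q, hq, he⟩
    have h : l < roof ω := by have := q.2; rwa [he] at this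
    exact ⟨h, (Subtype.ext he : q = ⟨(ω, l), h⟩) ▸ hq⟩
  · rintro ⟨h, hA⟩
    exact ⟨_, hA, rfl⟩

lemma measurableSet_image {A : Set (Sky R)} (hA : MeasurableSet A) :
    MeasurableSet (Subtype.val '' A : Set (Om R × ℕ)) :=
  (MeasurableEmbedding.subtype_coe (measurableSet_lt measurable_snd
    (measurable_roof.comp measurable_fst))).measurableSet_image.2 hA

lemma measurableSet_floorSet {A : Set (Sky R)} (hA : MeasurableSet A) (l : ℕ) :
    MeasurableSet (floorSet l A) :=
  (measurable_id.prodMk measurable_const) (measurableSet_image hA)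

lemma skyMeasure_apply {A : Set (Sky R)} (hA : MeasurableSet A) :
    skyMeasure R A = ∑' l, mu0 R (floorSet l A) := by
  rw [skyMeasure, (MeasurableEmbedding.subtype_coe (measurableSet_lt measurable_snd
      (measurable_roof.comp measurable_fst))).comap_apply]
  refine (Measure.prod_apply_symm (μ := mu0 R) (ν := Measure.count)
    (measurableSet_image hA)).trans ?_
  rw [lintegral_count]
  rfl

lemma sum_roof_eq {B : Set (Om R)} (hB : MeasurableSet B) :
    ∑' l, mu0 R ({ω | roof ω = l + 1} ∩ B) = mu0 R B := by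
  have hU : (⋃ l, {ω : Om R | roof ω = l + 1} ∩ B) = B := by
    ext ω
    simp only [mem_iUnion, mem_inter_iff, Set.mem_ofPred_eq]
    exact ⟨fun ⟨_, _, h⟩ => h, fun h => ⟨roof ω - 1, by have := roof_pos ω; omega, h⟩⟩
  conv_rhs => rw [← hU]
  rw [measure_iUnion]
  · intro a b hab
    exact Set.disjoint_left.2 fun ω h h' => hab (by simpa using h.1.symm.trans h'.1)
  · exact fun l => (measurable_roof (measurableSet_singleton _)).inter hB

lemma measurePreserving_S : MeasurePreserving (S R) (skyMeasure R) (skyMeasure R) := by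
  refine ⟨(S R).measurable, Measure.ext fun A hA => ?_⟩
  rw [Measure.map_apply (S R).measurable hA, skyMeasure_apply ((S R).measurable hA),
    skyMeasure_apply hA]
  have hB := measurable_shift 1 (measurableSet_floorSet hA 0)
  have hs : ∀ l, floorSet l (S R ⁻¹' A) = floorSet (l + 1) A ∪
      ({ω | roof ω = l + 1} ∩ shift 1 ⁻¹' floorSet 0 A) := by
    intro l
    ext ω
    simp only [mem_union, mem_inter_iff, mem_preimage, mem_floorSet, Set.mem_ofPred_eq]
    constructor
    · rintro ⟨h, hA'⟩
      change up _ ∈ A at hA'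
      by_cases h1 : l + 1 < roof ω
      · rw [up, dif_pos (show (⟨(ω, l), h⟩ : Sky R).1.2 + 1 < _ from h1)] at hA'
        exact Or.inl ⟨h1, hA'⟩
      · rw [up, dif_neg (show ¬ (⟨(ω, l), h⟩ : Sky R).1.2 + 1 < _ from h1)] at hA'
        exact Or.inr ⟨by omega, roof_pos _, hA'⟩
    · rintro (⟨h1, hA'⟩ | ⟨h1, h2, hA'⟩)
      · refine ⟨Nat.lt_of_succ_lt h1, ?_⟩
        change up _ ∈ A
        rw [up, dif_pos (show (⟨(ω, l), _⟩ : Sky R).1.2 + 1 < _ from h1)]
        exact hA'
      · refine ⟨by omega, ?_⟩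
        change up _ ∈ A
        rw [up, dif_neg (show ¬ (⟨(ω, l), _⟩ : Sky R).1.2 + 1 < _ by
          show ¬ l + 1 < roof ω; omega)]
        exact hA'
  have hd : ∀ l, Disjoint (floorSet (l + 1) A)
      ({ω | roof ω = l + 1} ∩ shift 1 ⁻¹' floorSet 0 A) := fun l => by
    refine Set.disjoint_left.2 fun ω h h' => ?_
    obtain ⟨h1, -⟩ := mem_floorSet.1 h
    have h2 : roof ω = l + 1 := h'.1
    omega
  simp only [hs, fun l => measure_union (μ := mu0 R) (hd l)
    ((measurable_roof (measurableSet_singleton (l + 1))).inter hB)]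
  rw [ENNReal.tsum_add, sum_roof_eq hB, ← Measure.map_apply (measurable_shift 1)
    (measurableSet_floorSet hA 0), map_shift, add_comm]
  exact (tsum_eq_zero_add' (f := fun l => mu0 R (floorSet l A)) ENNReal.summable).symm

lemma skyMeasure_base (n : ℕ) : skyMeasure R (base R n) = (P R n : ℝ≥0∞)⁻¹ := by
  have h0 : floorSet 0 (base R n) = cyl n 0 := by
    ext ω
    simp [mem_floorSet, base, cyl, roof_pos ω]
  rw [skyMeasure_apply (measurableSet_base n), tsum_eq_single 0, h0, mu0_cyl (P_pos R n)]
  intro l hl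
  have : floorSet l (base R n) = ∅ :=
    eq_empty_of_forall_notMem fun ω h => hl ((mem_floorSet.1 h).2.1)
  rw [this, measure_empty]

lemma skyMeasure_singleton (q : Sky R) : skyMeasure R {q} = 0 := by
  rw [skyMeasure_apply (measurableSet_singleton q), ENNReal.tsum_eq_zero]
  intro l
  refine measure_mono_null (fun ω h => ?_) (mu0_singleton q.1.1)
  obtain ⟨h1, h2⟩ := mem_floorSet.1 h
  exact congrArg (fun q : Sky R => q.1.1) (Set.mem_singleton_iff.1 h2)

variable (R) in
theorem exists_skyMeasure : ∃ m : Measure (Sky R), MeasurePreserving (S R) m m ∧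
    (∀ n, m (base R n) = (P R n : ℝ≥0∞)⁻¹) ∧ ∀ q, m {q} = 0 :=
  ⟨skyMeasure R, measurePreserving_S, skyMeasure_base, skyMeasure_singleton⟩

end Vale.Agent.P130.Lebesgue.Skyscraper
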