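import Vale.Agent.P130.Lebesgue.RankOne.Mass

/-!
# Correlations of the bases of the towers
-/

noncomputable section

namespace Vale.Agent.P130.Lebesgue.Skyscraper

open Finset MeasureTheory Filter
open scoped ComplexConjugate Topology

variable {R : RankOne}

variable (R) in
/-- The automorphism, moving down. -/
def T : Sky R ≃ᵐ Sky R := (S R).symm

variable (R) in
/-- The indicator of the base of tower `n`. -/
def F (n : ℕ) : Sky R → ℂ := (base R n).indicator fun _ => 1

lemma iter_add {X : Type} [MeasurableSpace X] (U : X ≃ᵐ X) (a b : ℤ) (x : X) :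
    iter U (a + b) x = iter U a (iter U b x) := by
  simp only [iter, zpow_add, Equiv.Perm.mul_apply]

lemma iter_natCast {X : Type} [MeasurableSpace X] (U : X ≃ᵐ X) (n : ℕ) :
    iter U (n : ℤ) = U^[n] := by
  ext x
  simp only [iter, zpow_natCast, Equiv.Perm.coe_pow]
  rfl

lemma iter_negSucc {X : Type} [MeasurableSpace X] (U : X ≃ᵐ X) (n : ℕ) :
    iter U (Int.negSucc n) = U.symm^[n + 1] := by
  ext x
  simp only [iter, zpow_negSucc, ← inv_pow, Equiv.Perm.coe_pow]
  rfl

lemma measurePreserving_iter {X : Type} [MeasurableSpace X] {μ : Measure X} {U : X ≃ᵐ X}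
    (h : MeasurePreserving U μ μ) : ∀ a : ℤ, MeasurePreserving (iter U a) μ μ
  | (n : ℕ) => by rw [iter_natCast]; exact h.iterate n
  | Int.negSucc n => by rw [iter_negSucc]; exact (h.symm U).iterate (n + 1)

lemma mem_level_iff {n l : ℕ} {x : Sky R} : x ∈ level R n l ↔ iter (T R) (l : ℤ) x ∈ base R n := by
  have h1 : Function.LeftInverse (down^[l] : Sky R → Sky R) up^[l] :=
    Function.LeftInverse.iterate down_up l
  have h2 : Function.LeftInverse (up^[l] : Sky R → Sky R) down^[l] :=
    Function.LeftInverse.iterate up_down l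
  rw [iter_natCast]
  change x ∈ level R n l ↔ down^[l] x ∈ base R n
  constructor
  · rintro ⟨b, hb, rfl⟩
    rwa [h1 b]
  · exact fun h => ⟨_, h, h2 x⟩

lemma F_apply_iter (n l : ℕ) (x : Sky R) :
    F R n (iter (T R) (l : ℤ) x) = (level R n l).indicator (fun _ => (1 : ℂ)) x := by
  classical
  rw [F, Set.indicator_apply, Set.indicator_apply]
  exact if_congr mem_level_iff.symm rfl rfl

lemma pos_strictMono (n : ℕ) : StrictMono (R.pos n) :=
  strictMono_nat_of_lt_succ fun j => by
    rw [pos_succ]
    have := h_pos (R := R) n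
    omega

/-- `F n` is the sum over the copies. -/
lemma F_succ (n : ℕ) (x : Sky R) :
    F R n x = ∑ j ∈ range (R.p n), F R (n + 1) (iter (T R) (R.pos n j : ℤ) x) := by
  classical
  simp only [F_apply_iter]
  by_cases hx : x ∈ base R n
  · obtain ⟨j, hj, hxj⟩ := mem_base_iff.1 hx
    rw [F, Set.indicator_of_mem hx, sum_eq_single j, Set.indicator_of_mem hxj]
    · intro i hi hne
      refine Set.indicator_of_notMem ?_ _
      exact Set.disjoint_right.1 (level_disjoint (pos_lt (mem_range.1 hi)) (pos_lt hj)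
        ((pos_strictMono n).injective.ne hne)) hxj
    · exact fun h => absurd (mem_range.2 hj) h
  · rw [F, Set.indicator_of_notMem hx, sum_eq_zero]
    exact fun i hi => Set.indicator_of_notMem
      (fun h => hx (mem_base_iff.2 ⟨i, mem_range.1 hi, h⟩)) _

variable (R) in
/-- Positions of the copies of tower `k` inside tower `k + d`. -/
def posSet (k : ℕ) : ℕ → Finset ℕ
  | 0 => {0}
  | d + 1 => (range (R.p (k + d))).biUnion fun j =>
      (posSet k d).image fun q => q + R.pos (k + d) j

lemma posSet_lt (k : ℕ) : ∀ d, ∀ q ∈ posSet R k d, q < R.h (k + d)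
  | 0, q, hq => by
    rw [posSet, mem_singleton] at hq
    rw [hq]
    exact h_pos _
  | d + 1, q, hq => by
    simp only [posSet, mem_biUnion, mem_range, mem_image] at hq
    obtain ⟨j, hj, r, hr, rfl⟩ := hq
    have := posSet_lt k d r hr
    have := pos_add_le (R := R) hj
    rw [← Nat.add_assoc]
    omega

lemma sum_posSet {M : Type*} [AddCommMonoid M] (k d : ℕ) (f : ℕ → M) :
    ∑ q ∈ posSet R k (d + 1), f q =
      ∑ j ∈ range (R.p (k + d)), ∑ q ∈ posSet R k d, f (q + R.pos (k + d) j) := by
  rw [posSet, sum_biUnion]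
  · exact sum_congr rfl fun j _ => sum_image fun a _ b _ h => Nat.add_right_cancel h
  · intro i hi j hj hne
    simp only [Function.onFun, disjoint_left, mem_image]
    rintro _ ⟨a, ha, rfl⟩ ⟨b, hb, hab⟩
    have := posSet_lt k d a ha
    have := posSet_lt k d b hb
    rcases Nat.lt_or_gt_of_ne hne with h | h
    · have := pos_mono (R := R) (k + d) (Nat.succ_le_of_lt h)
      rw [Nat.succ_eq_add_one, pos_succ] at this
      omega
    · have := pos_mono (R := R) (k + d) (Nat.succ_le_of_lt h)
      rw [Nat.succ_eq_add_one, pos_succ] at this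
      omega

lemma F_eq_sum (k : ℕ) : ∀ d (x : Sky R),
    F R k x = ∑ q ∈ posSet R k d, F R (k + d) (iter (T R) (q : ℤ) x)
  | 0, x => by simp [posSet, iter]
  | d + 1, x => by
    rw [F_eq_sum k d x, sum_posSet, sum_comm]
    refine sum_congr rfl fun q _ => ?_
    rw [F_succ (k + d)]
    refine sum_congr rfl fun j _ => ?_
    rw [← iter_add, Nat.cast_add, add_comm (q : ℤ)]
    rfl

lemma riesz_eq (k : ℕ) : ∀ (d : ℕ) (θ : ℝ),
    (∏ i ∈ Ico k (k + d), (R.p i : ℝ)) * R.riesz k (k + d) θ =
      ‖∑ q ∈ posSet R k d, e ((q : ℕ) * θ)‖ ^ 2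
  | 0, θ => by simp [RankOne.riesz, posSet, e]
  | d + 1, θ => by
    have ih := riesz_eq k d θ
    rw [RankOne.riesz] at ih ⊢
    rw [← Nat.add_assoc, prod_Ico_succ_top (Nat.le_add_right k d),
      prod_Ico_succ_top (Nat.le_add_right k d), sum_posSet]
    have hfac : ∑ j ∈ range (R.p (k + d)), ∑ q ∈ posSet R k d,
        e (((q + R.pos (k + d) j : ℕ) : ℝ) * θ) =
        (∑ j ∈ range (R.p (k + d)), e ((R.pos (k + d) j : ℕ) * θ)) *
          ∑ q ∈ posSet R k d, e ((q : ℕ) * θ) := by
      rw [sum_mul_sum]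
      refine sum_congr rfl fun j _ => sum_congr rfl fun q _ => ?_
      rw [e, e, e, ← Complex.exp_add]
      push_cast
      ring_nf
    rw [hfac, norm_mul, mul_pow, ← ih, RankOne.P, norm_mul, norm_inv, Complex.norm_real,
      Real.norm_of_nonneg (Real.sqrt_nonneg _), mul_pow, inv_pow,
      Real.sq_sqrt (Nat.cast_nonneg _)]
    have : (R.p (k + d) : ℝ) ≠ 0 := Nat.cast_ne_zero.2 (p_pos R _).ne'
    generalize ‖∑ j ∈ range (R.p (k + d)), e ((R.pos (k + d) j : ℕ) * θ)‖ = X
    field_simp

lemma e_add (x y : ℝ) : e (x + y) = e x * e y := by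
  rw [e, e, e, ← Complex.exp_add]
  push_cast
  ring_nf

lemma conj_e (x : ℝ) : conj (e x) = e (-x) := by
  rw [e, e, ← Complex.exp_conj, map_mul, Complex.conj_ofReal, Complex.conj_I]
  push_cast
  ring_nf

lemma continuous_e_mul (z : ℝ) : Continuous fun θ : ℝ => e (z * θ) := by
  unfold e
  fun_prop

lemma integral_e_int (z : ℤ) :
    ∫ θ in (0 : ℝ)..1, e ((z : ℝ) * θ) = if z = 0 then 1 else 0 := by
  split_ifs with h
  · simp [h, e]
  · have hc : (2 * Real.pi * z : ℂ) * Complex.I ≠ 0 := by
      simp [h, Real.pi_ne_zero]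
    have hfun : (fun θ : ℝ => e ((z : ℝ) * θ)) =
        fun θ : ℝ => Complex.exp (((2 * Real.pi * z : ℂ) * Complex.I) * θ) := by
      funext θ
      rw [e]
      push_cast
      ring_nf
    rw [hfun, integral_exp_mul_complex hc]
    have : Complex.exp ((2 * Real.pi * z : ℂ) * Complex.I) = 1 := by
      rw [show (2 * Real.pi * z : ℂ) * Complex.I = z * (2 * Real.pi * Complex.I) by ring]
      exact Complex.exp_int_mul_two_pi_mul_I z
    simp [this]

/-- Fourier coefficients of the Riesz products count differences of positions. -/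
lemma riesz_coeff (k d : ℕ) (D : ℤ) :
    ((∏ i ∈ Ico k (k + d), (R.p i : ℝ) : ℝ) : ℂ) *
      ∫ θ in (0 : ℝ)..1, (R.riesz k (k + d) θ : ℂ) * e ((D : ℝ) * θ) =
    ∑ q ∈ posSet R k d, ∑ q' ∈ posSet R k d,
      if (q : ℤ) - q' + D = 0 then (1 : ℂ) else 0 := by
  rw [← intervalIntegral.integral_const_mul]
  have h : ∀ θ : ℝ, ((∏ i ∈ Ico k (k + d), (R.p i : ℝ) : ℝ) : ℂ) *
      ((R.riesz k (k + d) θ : ℂ) * e ((D : ℝ) * θ)) =
      ∑ q ∈ posSet R k d, ∑ q' ∈ posSet R k d, e ((((q : ℤ) - q' + D : ℤ) : ℝ) * θ) := by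
    intro θ
    rw [← mul_assoc, ← Complex.ofReal_mul, riesz_eq, Complex.ofReal_pow, ← Complex.mul_conj',
      map_sum, sum_mul_sum, sum_mul]
    refine sum_congr rfl fun q _ => ?_
    rw [sum_mul]
    refine sum_congr rfl fun q' _ => ?_
    rw [conj_e, ← e_add, ← e_add]
    congr 1
    push_cast
    ring
  rw [intervalIntegral.integral_congr (fun θ _ => h θ), intervalIntegral.integral_finsetSum]
  · refine sum_congr rfl fun q _ => ?_
    rw [intervalIntegral.integral_finsetSum]
    · exact sum_congr rfl fun q' _ => integral_e_int _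
    · exact fun q' _ => (continuous_e_mul _).intervalIntegrable _ _
  · exact fun q _ =>
      (continuous_finsetSum _ fun q' _ => continuous_e_mul _).intervalIntegrable _ _

/-- The translate of the base of tower `n` cut out by `F n ∘ T^a`. -/
def shifted (R : RankOne) (n : ℕ) (a : ℤ) : Set (Sky R) := iter (T R) a ⁻¹' base R n

section

variable {μ : Measure (Sky R)} [IsProbabilityMeasure μ] (hT : MeasurePreserving (T R) μ μ)
include hT

lemma measurableSet_shifted (n : ℕ) (a : ℤ) : MeasurableSet (shifted R n a) :=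
  (measurePreserving_iter hT a).measurable (measurableSet_base n)

lemma real_shifted (n : ℕ) (a : ℤ) : μ.real (shifted R n a) = μ.real (base R n) := by
  rw [measureReal_def, measureReal_def, shifted,
    (measurePreserving_iter hT a).measure_preimage (measurableSet_base n).nullMeasurableSet]

omit [IsProbabilityMeasure μ] hT in
lemma shifted_disjoint {n : ℕ} {a b : ℤ} (h : a ≠ b) (hd : |a - b| < R.h n) :
    Disjoint (shifted R n a) (shifted R n b) := by
  rw [Set.disjoint_left]
  suffices key : ∀ a b : ℤ, a < b → b - a < R.h n → ∀ x,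
      x ∈ shifted R n a → x ∈ shifted R n b → False by
    intro x hx hy
    rcases lt_or_gt_of_ne h with h' | h'
    · exact key a b h' (by have := abs_lt.1 hd; omega) x hx hy
    · exact key b a h' (by have := abs_lt.1 hd; omega) x hy hx
  intro a b hab hd x hx hy
  simp only [shifted, Set.mem_preimage] at hx hy
  obtain ⟨d, hd'⟩ := Int.eq_ofNat_of_zero_le (show 0 ≤ b - a by omega)
  have hb : b = (d : ℤ) + a := by omega
  rw [hb, iter_add] at hy
  obtain ⟨b', hb', hbx⟩ := mem_level_iff.2 hy
  have := base_return (show d < R.h n by omega) hb' (by rw [hbx]; exact hx)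
  omega

lemma integral_pair (n : ℕ) (a b : ℤ) :
    ∫ x, conj (F R n (iter (T R) a x)) * F R n (iter (T R) b x) ∂μ =
      (μ.real (shifted R n a ∩ shifted R n b) : ℂ) := by
  classical
  have h : ∀ x, conj (F R n (iter (T R) a x)) * F R n (iter (T R) b x) =
      (shifted R n a ∩ shifted R n b).indicator (fun _ => (1 : ℂ)) x := by
    intro x
    simp only [F, Set.indicator_apply, shifted, Set.mem_inter_iff, Set.mem_preimage]
    split_ifs <;> simp_all
  simp only [h]
  rw [integral_indicator_const _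
    ((measurableSet_shifted hT n a).inter (measurableSet_shifted hT n b))]
  simp

lemma memLp_F_iter (n : ℕ) (a : ℤ) : MemLp (fun x => F R n (iter (T R) a x)) 2 μ := by
  have h : (fun x => F R n (iter (T R) a x)) = (shifted R n a).indicator fun _ => (1 : ℂ) := by
    funext x
    rfl
  rw [h]
  exact memLp_indicator_const 2 (measurableSet_shifted hT n a) 1
    (Or.inr (measure_ne_top _ _))

lemma corr_expand (k d : ℕ) (a b : ℤ) :
    ∫ x, conj (F R k (iter (T R) a x)) * F R k (iter (T R) b x) ∂μ =
      ∑ q ∈ posSet R k d, ∑ q' ∈ posSet R k d,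
        (μ.real (shifted R (k + d) (q + a) ∩ shifted R (k + d) (q' + b)) : ℂ) := by
  have h : ∀ x, conj (F R k (iter (T R) a x)) * F R k (iter (T R) b x) =
      ∑ q ∈ posSet R k d, ∑ q' ∈ posSet R k d,
        conj (F R (k + d) (iter (T R) (q + a) x)) * F R (k + d) (iter (T R) (q' + b) x) := by
    intro x
    rw [F_eq_sum k d (iter (T R) a x), F_eq_sum k d (iter (T R) b x), map_sum, sum_mul_sum]
    simp only [iter_add]
  have hint : ∀ q q' : ℕ, Integrable (fun x =>
      conj (F R (k + d) (iter (T R) (q + a) x)) * F R (k + d) (iter (T R) (q' + b) x)) μ :=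
    fun q q' => ((memLp_F_iter hT (k + d) (q + a)).star).integrable_mul
      (memLp_F_iter hT (k + d) (q' + b))
  simp only [h]
  rw [integral_finsetSum _ fun q _ => integrable_finsetSum _ fun q' _ => hint q q']
  refine sum_congr rfl fun q _ => ?_
  rw [integral_finsetSum _ fun q' _ => hint q q']
  exact sum_congr rfl fun q' _ => integral_pair hT _ _ _

lemma row_le (n : ℕ) (s : Set (Sky R)) (b : ℤ) (Q : Finset ℕ) (hQ : ∀ q ∈ Q, q < R.h n) :
    ∑ q ∈ Q, μ.real (s ∩ shifted R n (q + b)) ≤ μ.real s := by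
  have hdis : ((Q : Set ℕ)).Pairwise fun q q' =>
      Disjoint (shifted R n (q + b)) (shifted R n (q' + b)) := by
    intro q hq q' hq' hne
    refine shifted_disjoint (by omega) (abs_lt.2 ⟨?_, ?_⟩)
    · have := hQ q' hq'; omega
    · have := hQ q hq; omega
  calc ∑ q ∈ Q, μ.real (s ∩ shifted R n (q + b))
      = ∑ q ∈ Q, (μ.restrict s).real (shifted R n (q + b)) := by
        refine sum_congr rfl fun q _ => ?_
        rw [measureReal_restrict_apply (measurableSet_shifted hT n _), Set.inter_comm]
    _ = (μ.restrict s).real (⋃ q ∈ Q, shifted R n (q + b)) :=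
        (measureReal_biUnion_finset hdis fun q _ => measurableSet_shifted hT n _).symm
    _ ≤ (μ.restrict s).real Set.univ := measureReal_mono (Set.subset_univ _)
    _ = μ.real s := by rw [measureReal_restrict_apply MeasurableSet.univ, Set.univ_inter]

/-- The correlations differ from the counts by the few pairs near the top of the tower. -/
lemma corr_bound (k d : ℕ) (a b : ℤ) :
    |(∑ q ∈ posSet R k d, ∑ q' ∈ posSet R k d,
        μ.real (shifted R (k + d) (q + a) ∩ shifted R (k + d) (q' + b))) -
      μ.real (base R (k + d)) * ∑ q ∈ posSet R k d, ∑ q' ∈ posSet R k d,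
        (if (q : ℤ) + a = q' + b then (1 : ℝ) else 0)| ≤
      2 * (a - b).natAbs * μ.real (base R (k + d)) := by
  classical
  set n := k + d with hn
  set Q := posSet R k d with hQdef
  set E := (a - b).natAbs with hE
  set hi := Q.filter fun q => R.h n ≤ q + E with hhi
  set I : ℕ → ℕ → ℝ := fun q q' => μ.real (shifted R n (q + a) ∩ shifted R n (q' + b)) with hI
  set ν := μ.real (base R n) with hν
  have hQ : ∀ q ∈ Q, q < R.h n := posSet_lt k d
  have hhic : (hi.card : ℝ) ≤ E := by
    have hsub : hi ⊆ Finset.Ico (R.h n - E) (R.h n) := fun q hq => by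
      rw [hhi, mem_filter] at hq
      have := hQ q hq.1
      rw [Finset.mem_Ico]
      omega
    have := card_le_card hsub
    rw [Nat.card_Ico] at this
    exact_mod_cast (show hi.card ≤ E by omega)
  have hpt : ∀ q ∈ Q, ∀ q' ∈ Q, 0 ≤ I q q' - ν * (if (q : ℤ) + a = q' + b then 1 else 0) ∧
      I q q' - ν * (if (q : ℤ) + a = q' + b then 1 else 0) ≤
        (if q ∈ hi then I q q' else 0) + (if q' ∈ hi then I q q' else 0) := by
    intro q hq q' hq'
    have hI0 : 0 ≤ I q q' := measureReal_nonneg
    have hnn : 0 ≤ (if q ∈ hi then I q q' else 0) + (if q' ∈ hi then I q q' else 0) := by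
      split_ifs <;> linarith
    by_cases he : (q : ℤ) + a = q' + b
    · rw [if_pos he, mul_one]
      have : I q q' = ν := by
        simp only [hI, he, Set.inter_self]
        exact real_shifted hT n _
      rw [show I q q' - ν = 0 by rw [this, sub_self]]
      exact ⟨le_rfl, hnn⟩
    · rw [if_neg he, mul_zero, sub_zero]
      refine ⟨hI0, ?_⟩
      by_cases hd : |(q : ℤ) + a - (q' + b)| < R.h n
      · have : I q q' = 0 := by
          simp only [hI, Set.disjoint_iff_inter_eq_empty.1 (shifted_disjoint he hd),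
            measureReal_empty]
        rw [this]
        split_ifs <;> simp
      · have hqq : q ∈ hi ∨ q' ∈ hi := by
          have := hQ q hq
          have := hQ q' hq'
          simp only [hhi, mem_filter, hq, hq', true_and]
          rw [not_lt, le_abs] at hd
          omega
        rcases hqq with h | h <;> rw [if_pos h] <;> split_ifs <;> linarith
  have h1 : ∑ q ∈ Q, ∑ q' ∈ Q, (if q ∈ hi then I q q' else 0) ≤ E * ν := by
    calc ∑ q ∈ Q, ∑ q' ∈ Q, (if q ∈ hi then I q q' else 0)
        = ∑ q ∈ hi, ∑ q' ∈ Q, I q q' := by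
          rw [hhi, sum_filter]
          refine sum_congr rfl fun q hq => ?_
          simp only [mem_filter, hq, true_and]
          split_ifs <;> simp
      _ ≤ ∑ q ∈ hi, ν := sum_le_sum fun q _ =>
          (row_le hT n _ b Q hQ).trans (real_shifted hT n _).le
      _ ≤ E * ν := by
          rw [Finset.sum_const, nsmul_eq_mul]
          exact mul_le_mul_of_nonneg_right hhic measureReal_nonneg
  have h2 : ∑ q ∈ Q, ∑ q' ∈ Q, (if q' ∈ hi then I q q' else 0) ≤ E * ν := by
    calc ∑ q ∈ Q, ∑ q' ∈ Q, (if q' ∈ hi then I q q' else 0)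
        = ∑ q' ∈ hi, ∑ q ∈ Q, μ.real (shifted R n (q' + b) ∩ shifted R n (q + a)) := by
          rw [sum_comm (s := hi)]
          refine sum_congr rfl fun q _ => ?_
          rw [hhi, sum_filter]
          refine sum_congr rfl fun q' hq' => ?_
          simp [mem_filter, hq', hI, Set.inter_comm]
      _ ≤ ∑ q' ∈ hi, ν := sum_le_sum fun q' _ =>
          (row_le hT n _ a Q hQ).trans (real_shifted hT n _).le
      _ ≤ E * ν := by
          rw [Finset.sum_const, nsmul_eq_mul]
          exact mul_le_mul_of_nonneg_right hhic measureReal_nonneg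
  have hsub : (∑ q ∈ Q, ∑ q' ∈ Q, I q q') -
      ν * ∑ q ∈ Q, ∑ q' ∈ Q, (if (q : ℤ) + a = q' + b then (1 : ℝ) else 0) =
      ∑ q ∈ Q, ∑ q' ∈ Q, (I q q' - ν * if (q : ℤ) + a = q' + b then (1 : ℝ) else 0) := by
    simp only [mul_sum, sum_sub_distrib]
  change |(∑ q ∈ Q, ∑ q' ∈ Q, I q q') - _| ≤ _
  rw [hsub, abs_of_nonneg (sum_nonneg fun q hq => sum_nonneg fun q' hq' => (hpt q hq q' hq').1)]
  refine (sum_le_sum fun q hq => sum_le_sum fun q' hq' => (hpt q hq q' hq').2).trans ?_
  simp only [sum_add_distrib]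
  linarith

/-- The correlation clause. -/
lemma tendsto_corr (hν : Tendsto (fun n => μ.real (base R n)) atTop (𝓝 0))
    (hstep : ∀ n, μ.real (base R (n + 1)) = μ.real (base R n) / R.p n) (k : ℕ) (a b : ℤ) :
    Tendsto (fun n => ((μ.real (base R k) : ℝ) : ℂ) *
        ∫ θ in (0 : ℝ)..1, (R.riesz k n θ : ℂ) * e ((b - a) * θ))
      atTop (𝓝 (∫ x, conj (F R k (iter (T R) a x)) * F R k (iter (T R) b x) ∂μ)) := by
  have hprod : ∀ d, μ.real (base R (k + d)) * ∏ i ∈ Ico k (k + d), (R.p i : ℝ) =
      μ.real (base R k) := by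
    intro d
    induction d with
    | zero => simp
    | succ d ih =>
      rw [← Nat.add_assoc, hstep, prod_Ico_succ_top (Nat.le_add_right k d)]
      have : (R.p (k + d) : ℝ) ≠ 0 := Nat.cast_ne_zero.2 (p_pos R _).ne'
      field_simp
      linarith
  rw [← tendsto_add_atTop_iff_nat k]
  refine tendsto_iff_norm_sub_tendsto_zero.2 (squeeze_zero (fun _ => norm_nonneg _)
    (g := fun d => 2 * (a - b).natAbs * μ.real (base R (k + d))) (fun d => ?_) ?_)
  · rw [Nat.add_comm d k, corr_expand hT k d a b, ← hprod d, Complex.ofReal_mul, mul_assoc,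
      show ((b : ℝ) - a) = (((b - a : ℤ)) : ℝ) by push_cast; ring, riesz_coeff, sum_comm,
      norm_sub_rev]
    have hcast : (((μ.real (base R (k + d)) : ℝ) : ℂ) * ∑ q ∈ posSet R k d,
        ∑ q' ∈ posSet R k d, if (q' : ℤ) - q + (b - a) = 0 then (1 : ℂ) else 0) =
        ((μ.real (base R (k + d)) * ∑ q ∈ posSet R k d, ∑ q' ∈ posSet R k d,
          (if (q : ℤ) + a = q' + b then (1 : ℝ) else 0) : ℝ) : ℂ) := by
      push_cast
      refine congrArg _ (sum_congr rfl fun q _ => sum_congr rfl fun q' _ => ?_)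
      by_cases h : (q : ℤ) + a = q' + b
      · rw [if_pos h, if_pos (by omega)]; simp
      · rw [if_neg h, if_neg (by omega)]; simp
    rw [hcast]
    simp only [← Complex.ofReal_sum, ← Complex.ofReal_sub, Complex.norm_real, Real.norm_eq_abs]
    exact corr_bound hT k d a b
  · have h : Tendsto (fun d => μ.real (base R (k + d))) atTop (𝓝 0) := by
      simp only [Nat.add_comm k]
      exact (tendsto_add_atTop_iff_nat k).2 hν
    simpa using h.const_mul (2 * ((a - b).natAbs : ℝ))

end

end Vale.Agent.P130.Lebesgue.Skyscraper
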