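import Vale.Agent.P130.Lebesgue.Defs

/-!
# The skyscraper of a rank one construction over its odometer

Points of the odometer are compatible residue sequences away from the integers.  The roof over `ω`
is one plus the spacers met when `ω` is increased by one.
-/

noncomputable section

namespace Vale.Agent.P130.Lebesgue.Skyscraper

open MeasureTheory

variable (R : RankOne)

/-- `p 0 ⋯ p (k-1)`. -/
def P (k : ℕ) : ℕ := ∏ i ∈ Finset.range k, R.p i

lemma p_pos (k : ℕ) : 0 < R.p k := lt_of_lt_of_le two_pos (R.two_le k)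

lemma P_pos (k : ℕ) : 0 < P R k := Finset.prod_pos fun i _ => p_pos R i

lemma P_zero : P R 0 = 1 := Finset.prod_range_zero _

lemma P_succ (k : ℕ) : P R (k + 1) = P R k * R.p k := Finset.prod_range_succ _ _

lemma P_dvd {k n : ℕ} (h : k ≤ n) : P R k ∣ P R n :=
  Finset.prod_dvd_prod_of_subset _ _ _ (Finset.range_mono h)

/-- Compatible residues, different from those of every integer. -/
def IsPoint (x : ℕ → ℕ) : Prop :=
  (∀ k, x (k + 1) % P R k = x k) ∧ ∀ z : ℤ, ∃ k, (x k : ℤ) ≠ z % (P R k : ℤ)

/-- The odometer without the orbit of zero. -/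
abbrev Om : Type := {x : ℕ → ℕ // IsPoint R x}

variable {R}

lemma Om.lt (ω : Om R) (k : ℕ) : ω.1 k < P R k := by
  rw [← ω.2.1 k]
  exact Nat.mod_lt _ (P_pos R k)

lemma Om.mod_eq (ω : Om R) {k n : ℕ} (h : k ≤ n) : ω.1 n % P R k = ω.1 k := by
  induction n, h using Nat.le_induction with
  | base => exact Nat.mod_eq_of_lt (ω.lt k)
  | succ n hn ih => rw [← Nat.mod_mod_of_dvd _ (P_dvd R hn), ω.2.1 n, ih]

/-- Translation by an integer. -/
def shiftFun (z : ℤ) (x : ℕ → ℕ) (k : ℕ) : ℕ := (((x k : ℤ) + z) % (P R k : ℤ)).toNat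

lemma shiftFun_cast (z : ℤ) (x : ℕ → ℕ) (k : ℕ) :
    (shiftFun (R := R) z x k : ℤ) = ((x k : ℤ) + z) % (P R k : ℤ) :=
  Int.toNat_of_nonneg (Int.emod_nonneg _ (by exact_mod_cast (P_pos R k).ne'))

/-- Translation by an integer. -/
def shift (z : ℤ) (ω : Om R) : Om R :=
  ⟨shiftFun (R := R) z ω.1, by
    constructor
    · intro k
      apply Int.natCast_inj.1
      rw [Int.natCast_mod, shiftFun_cast, shiftFun_cast,
        Int.emod_emod_of_dvd _ (Int.natCast_dvd_natCast.2 (P_dvd R (Nat.le_succ k))),
        Int.add_emod, ← Int.natCast_mod, ω.2.1 k, ← Int.emod_emod_of_dvd ((z : ℤ)) (dvd_refl _)]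
      simp [Int.emod_add_emod]
    · intro w
      obtain ⟨k, hk⟩ := ω.2.2 (w - z)
      refine ⟨k, fun h => hk ?_⟩
      rw [shiftFun_cast] at h
      have h' : ((ω.1 k : ℤ) + z - z) % (P R k : ℤ) = (w - z) % (P R k : ℤ) := by
        rw [Int.sub_emod, h, ← Int.sub_emod]
      rw [add_sub_cancel_right, Int.emod_eq_of_lt (by positivity) (by exact_mod_cast ω.lt k)] at h'
      exact h'⟩

lemma shift_cast (z : ℤ) (ω : Om R) (k : ℕ) :
    ((shift z ω).1 k : ℤ) = ((ω.1 k : ℤ) + z) % (P R k : ℤ) := shiftFun_cast z ω.1 k

lemma shift_shift (z w : ℤ) (ω : Om R) : shift z (shift w ω) = shift (w + z) ω := by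
  refine Subtype.ext (funext fun k => Int.natCast_inj.1 ?_)
  rw [shift_cast, shift_cast, shift_cast, Int.emod_add_emod, add_assoc]

lemma shift_zero (ω : Om R) : shift 0 ω = ω := by
  refine Subtype.ext (funext fun k => Int.natCast_inj.1 ?_)
  rw [shift_cast, add_zero, Int.emod_eq_of_lt (by positivity) (by exact_mod_cast ω.lt k)]

lemma measurable_coord (k : ℕ) : Measurable fun ω : Om R => ω.1 k :=
  (measurable_pi_apply k).comp measurable_subtype_coe

lemma measurable_shift (z : ℤ) : Measurable (shift z : Om R → Om R) := by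
  refine Measurable.subtype_mk (measurable_pi_iff.2 fun k => ?_)
  exact (measurable_from_nat (f := fun n : ℕ => (((n : ℤ) + z) % (P R k : ℤ)).toNat)).comp
    (measurable_coord k)

/-- The digit at place `k`. -/
def digit (k : ℕ) (ω : Om R) : ℕ := ω.1 (k + 1) / P R k

lemma digit_lt (k : ℕ) (ω : Om R) : digit k ω < R.p k := by
  rw [digit, Nat.div_lt_iff_lt_mul (P_pos R k), mul_comm, ← P_succ]
  exact ω.lt _

lemma coord_succ (k : ℕ) (ω : Om R) : ω.1 (k + 1) = ω.1 k + P R k * digit k ω := by
  conv_lhs => rw [← Nat.mod_add_div (ω.1 (k + 1)) (P R k)]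
  rw [ω.2.1 k]
  rfl

lemma measurable_digit (k : ℕ) : Measurable (digit k : Om R → ℕ) :=
  (measurable_from_nat (f := fun n : ℕ => n / P R k)).comp (measurable_coord (k + 1))

lemma exists_not_top (k : ℕ) (ω : Om R) : ∃ m, digit (k + m) ω + 1 ≠ R.p (k + m) := by
  by_contra hcon
  push Not at hcon
  have hstep : ∀ m, (ω.1 (k + m) : ℤ) + P R k = ω.1 k + P R (k + m) := by
    intro m
    induction m with
    | zero => simp
    | succ m ih =>
      have h1 := coord_succ (k + m) ω
      have h2 : (digit (k + m) ω : ℤ) + 1 = R.p (k + m) := by exact_mod_cast hcon m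
      rw [← Nat.add_assoc, h1, P_succ]
      push_cast
      linear_combination ih + (P R (k + m) : ℤ) * h2
  obtain ⟨n, hn⟩ := ω.2.2 ((ω.1 k : ℤ) - P R k)
  apply hn
  have hmod : (ω.1 n : ℤ) = (ω.1 (k + n) : ℤ) % (P R n : ℤ) := by
    rw [← Int.natCast_mod, ω.mod_eq (Nat.le_add_left n k)]
  rw [hmod, show (ω.1 (k + n) : ℤ) = ω.1 k - P R k + P R (k + n) by linarith [hstep n],
    Int.add_emod, Int.emod_eq_zero_of_dvd
      (Int.natCast_dvd_natCast.2 (P_dvd R (Nat.le_add_left n k))), add_zero,
    Int.emod_emod_of_dvd _ (dvd_refl _)]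

open Classical in
/-- The number of top digits from place `k` on. -/
def run (k : ℕ) (ω : Om R) : ℕ := Nat.find (exists_not_top k ω)

lemma measurable_run (k : ℕ) : Measurable (run k : Om R → ℕ) := by
  classical
  refine measurable_find _ fun m => ?_
  exact (measurableSet_eq_fun ((measurable_digit (k + m)).add_const 1) measurable_const).compl

variable (R) in
/-- The spacers above the last copy at place `i`. -/
def last (i : ℕ) : ℕ := R.a i (R.p i - 1)

variable (R) in
/-- The spacers on top of tower `n` inside itself. -/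
def tau (n : ℕ) : ℕ := ∑ i ∈ Finset.range n, last R i

/-- The spacers met on leaving tower `k`. -/
def gap (k : ℕ) (ω : Om R) : ℕ :=
  R.a (k + run k ω) (digit (k + run k ω) ω) + ∑ i ∈ Finset.range (run k ω), last R (k + i)

/-- The roof function. -/
def roof (ω : Om R) : ℕ := 1 + gap 0 ω

lemma roof_pos (ω : Om R) : 0 < roof ω := by simp [roof]

lemma measurable_gap (k : ℕ) : Measurable (gap k : Om R → ℕ) := by
  have h : Measurable fun q : Om R × ℕ =>
      R.a (k + q.2) (digit (k + q.2) q.1) + ∑ i ∈ Finset.range q.2, last R (k + i) :=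
    measurable_from_prod_countable_left fun m =>
      (measurable_from_nat (f := fun d : ℕ => R.a (k + m) d +
        ∑ i ∈ Finset.range m, last R (k + i))).comp (measurable_digit (k + m))
  exact h.comp (measurable_id.prodMk (measurable_run k))

lemma measurable_roof : Measurable (roof : Om R → ℕ) :=
  (measurable_gap 0).const_add 1

variable (R) in
/-- The skyscraper. -/
abbrev Sky : Type := {q : Om R × ℕ // q.2 < roof q.1}

/-- The point of the bottom floor over `ω`. -/
def bottom (ω : Om R) : Sky R := ⟨(ω, 0), roof_pos ω⟩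

lemma measurable_bottom : Measurable (bottom : Om R → Sky R) :=
  (measurable_id.prodMk measurable_const).subtype_mk

/-- One step up. -/
def up (q : Sky R) : Sky R :=
  if h : q.1.2 + 1 < roof q.1.1 then ⟨(q.1.1, q.1.2 + 1), h⟩ else bottom (shift 1 q.1.1)

/-- One step down. -/
def down (q : Sky R) : Sky R :=
  if q.1.2 = 0 then
    ⟨(shift (-1) q.1.1, roof (shift (-1) q.1.1) - 1), Nat.sub_lt (roof_pos _) Nat.one_pos⟩
  else ⟨(q.1.1, q.1.2 - 1), lt_of_le_of_lt (Nat.sub_le _ _) q.2⟩

lemma up_val (q : Sky R) : (up q).1 =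
    if q.1.2 + 1 < roof q.1.1 then (q.1.1, q.1.2 + 1) else (shift 1 q.1.1, 0) := by
  unfold up
  split_ifs <;> rfl

lemma down_val (q : Sky R) : (down q).1 =
    if q.1.2 = 0 then (shift (-1) q.1.1, roof (shift (-1) q.1.1) - 1)
    else (q.1.1, q.1.2 - 1) := by
  unfold down
  split_ifs <;> rfl

lemma down_up (q : Sky R) : down (up q) = q := by
  refine Subtype.ext ?_
  rw [down_val, up_val]
  by_cases h : q.1.2 + 1 < roof q.1.1
  · simp [h]
  · have := q.2
    simp [h, shift_shift, shift_zero]
    ext <;> simp <;> omega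

lemma up_down (q : Sky R) : up (down q) = q := by
  refine Subtype.ext ?_
  rw [up_val, down_val]
  by_cases h : q.1.2 = 0
  · have := roof_pos (shift (-1) q.1.1)
    rw [if_pos h]
    dsimp only
    rw [if_neg (by omega), shift_shift, neg_add_cancel, shift_zero]
    exact Prod.ext rfl h.symm
  · have := q.2
    rw [if_neg h]
    dsimp only
    rw [if_pos (by omega), Nat.sub_add_cancel (Nat.one_le_iff_ne_zero.2 h)]

lemma measurable_floor : Measurable fun q : Sky R => q.1.2 :=
  measurable_snd.comp measurable_subtype_coe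

lemma measurable_point : Measurable fun q : Sky R => q.1.1 :=
  measurable_fst.comp measurable_subtype_coe

lemma measurable_up : Measurable (up : Sky R → Sky R) := by
  have h : Measurable fun q : Sky R => (up q).1 := by
    simp only [up_val]
    exact Measurable.ite (measurableSet_lt (measurable_floor.add_const 1)
      (measurable_roof.comp measurable_point))
      (measurable_point.prodMk (measurable_floor.add_const 1))
      (((measurable_shift 1).comp measurable_point).prodMk measurable_const)
  exact h.subtype_mk (h := fun q => (up q).2)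

lemma measurable_down : Measurable (down : Sky R → Sky R) := by
  have h : Measurable fun q : Sky R => (down q).1 := by
    simp only [down_val]
    exact Measurable.ite (measurable_floor (measurableSet_singleton 0))
      (((measurable_shift (-1)).comp measurable_point).prodMk
        ((measurable_from_nat (f := fun n : ℕ => n - 1)).comp
          (measurable_roof.comp ((measurable_shift (-1)).comp measurable_point))))
      (measurable_point.prodMk
        ((measurable_from_nat (f := fun n : ℕ => n - 1)).comp measurable_floor))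
  exact h.subtype_mk (h := fun q => (down q).2)

variable (R) in
/-- The skyscraper map, moving up. -/
def S : Sky R ≃ᵐ Sky R where
  toEquiv := ⟨up, down, down_up, up_down⟩
  measurable_toFun := measurable_up
  measurable_invFun := measurable_down

variable (R) in
/-- The base of tower `n`. -/
def base (n : ℕ) : Set (Sky R) := {q | q.1.2 = 0 ∧ q.1.1.1 n = 0}

lemma measurableSet_base (n : ℕ) : MeasurableSet (base R n) :=
  (measurable_floor (measurableSet_singleton 0)).inter
    (((measurable_coord n).comp measurable_point) (measurableSet_singleton 0))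

lemma measurableSet_isPoint : MeasurableSet {x : ℕ → ℕ | IsPoint R x} := by
  refine MeasurableSet.inter (s₁ := {x | ∀ k, x (k + 1) % P R k = x k})
    (s₂ := {x : ℕ → ℕ | ∀ z : ℤ, ∃ k, (x k : ℤ) ≠ z % (P R k : ℤ)}) ?_ ?_
  · rw [Set.ofPred_forall]
    exact MeasurableSet.iInter fun k => measurableSet_eq_fun
      ((measurable_from_nat (f := fun n : ℕ => n % P R k)).comp (measurable_pi_apply (k + 1)))
      (measurable_pi_apply k)
  · simp only [Set.ofPred_forall, Set.ofPred_exists]
    exact MeasurableSet.iInter fun z => MeasurableSet.iUnion fun k =>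
      (measurableSet_eq_fun ((measurable_from_nat (f := fun n : ℕ => (n : ℤ))).comp
        (measurable_pi_apply k)) measurable_const).compl

instance : StandardBorelSpace (Om R) := (measurableSet_isPoint (R := R)).standardBorel

instance : StandardBorelSpace (Sky R) :=
  (measurableSet_lt measurable_snd (measurable_roof.comp measurable_fst) :
    MeasurableSet {q : Om R × ℕ | q.2 < roof q.1}).standardBorel

end Vale.Agent.P130.Lebesgue.Skyscraper
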