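import Vale.Agent.P130.Lebesgue.RankOne.Defs

/-!
# The towers of the skyscraper

The level `l < h n` over the base of tower `n` is the set of points with prescribed residue at
place `n` and prescribed floor.  These sets nest and exhaust the space.
-/

noncomputable section

namespace Vale.Agent.P130.Lebesgue.Skyscraper

open Finset MeasureTheory

variable {R : RankOne}

/-! ### Digits and gaps -/

lemma shift_small {n i : ℕ} (hi : i < P R n) {ω : Om R} (hω : ω.1 n = 0) :
    (shift (i : ℤ) ω).1 n = i := by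
  apply Int.natCast_inj.1
  rw [shift_cast, hω, Nat.cast_zero, zero_add,
    Int.emod_eq_of_lt (by positivity) (by exact_mod_cast hi)]

lemma shift_back {n : ℕ} (ω : Om R) : (shift (-(ω.1 n : ℤ)) ω).1 n = 0 := by
  apply Int.natCast_inj.1
  rw [shift_cast, add_neg_cancel, Int.zero_emod, Nat.cast_zero]

lemma coord_eq_zero {ω : Om R} {k n : ℕ} (h : k ≤ n) (hn : ω.1 n = 0) : ω.1 k = 0 := by
  rw [← ω.mod_eq h, hn, Nat.zero_mod]

lemma add_mul_lt {n j : ℕ} (hj : j < R.p n) : j * P R n < P R (n + 1) := by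
  rw [P_succ, mul_comm (P R n)]
  exact Nat.mul_lt_mul_of_pos_right hj (P_pos R n)

lemma shift_high {n j m : ℕ} (hj : j < R.p n) {ω : Om R} (hω : ω.1 (n + 1) = 0)
    (hm : n + 1 ≤ m) : (shift ((j * P R n : ℕ) : ℤ) ω).1 m = ω.1 m + j * P R n := by
  have h1 : P R (n + 1) ∣ ω.1 m := Nat.dvd_of_mod_eq_zero (by rw [ω.mod_eq hm, hω])
  obtain ⟨a, ha⟩ := h1
  obtain ⟨b, hb⟩ := P_dvd R hm
  have h2 : ω.1 m + P R (n + 1) ≤ P R m := by
    have h3 := ω.lt m
    rw [ha, hb] at h3 ⊢
    have h4 := Nat.lt_of_mul_lt_mul_left h3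
    have h5 := Nat.mul_le_mul_left (P R (n + 1)) (Nat.succ_le_of_lt h4)
    rw [Nat.mul_succ] at h5
    exact h5
  have h6 := add_mul_lt (R := R) hj
  apply Int.natCast_inj.1
  rw [shift_cast, ← Nat.cast_add,
    Int.emod_eq_of_lt (Nat.cast_nonneg _) (by exact_mod_cast (show _ < P R m by omega))]

lemma shift_copy {n j : ℕ} (hj : j < R.p n) {ω : Om R} (hω : ω.1 (n + 1) = 0) :
    (shift ((j * P R n : ℕ) : ℤ) ω).1 n = 0 ∧
      digit n (shift ((j * P R n : ℕ) : ℤ) ω) = j ∧
      ∀ m, n + 1 ≤ m → digit m (shift ((j * P R n : ℕ) : ℤ) ω) = digit m ω := by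
  have h1 : (shift ((j * P R n : ℕ) : ℤ) ω).1 (n + 1) = j * P R n := by
    rw [shift_high hj hω le_rfl, hω, zero_add]
  refine ⟨?_, ?_, fun m hm => ?_⟩
  · rw [← Om.mod_eq _ (Nat.le_succ n), h1, Nat.mul_mod_left]
  · rw [digit, h1, Nat.mul_div_cancel _ (P_pos R n)]
  · have h2 := shift_high hj hω hm
    have h3 := (shift ((j * P R n : ℕ) : ℤ) ω).lt m
    rw [h2] at h3
    rw [digit, shift_high hj hω (hm.trans (Nat.le_succ m)), coord_succ m ω,
      show ω.1 m + P R m * digit m ω + j * P R n =
        (ω.1 m + j * P R n) + P R m * digit m ω by omega,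
      Nat.add_mul_div_left _ _ (P_pos R m), Nat.div_eq_of_lt h3, zero_add]

lemma gap_of_ne {k : ℕ} {ω : Om R} (h : digit k ω + 1 ≠ R.p k) :
    gap k ω = R.a k (digit k ω) := by
  classical
  have h0 : run k ω = 0 := by
    rw [run, Nat.find_eq_zero]
    exact h
  simp [gap, h0]

lemma gap_of_eq {k : ℕ} {ω : Om R} (h : digit k ω + 1 = R.p k) :
    gap k ω = last R k + gap (k + 1) ω := by
  classical
  have hrun : run k ω = run (k + 1) ω + 1 := by
    rw [run, Nat.find_eq_iff]
    refine ⟨?_, fun i hi => ?_⟩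
    · have := Nat.find_spec (exists_not_top (k + 1) ω)
      rwa [show k + (run (k + 1) ω + 1) = k + 1 + run (k + 1) ω by omega]
    · rw [not_not]
      rcases i with - | i
      · exact h
      · have := Nat.find_min (exists_not_top (k + 1) ω) (show i < run (k + 1) ω by omega)
        rw [not_not] at this
        rwa [show k + (i + 1) = k + 1 + i by omega]
  rw [gap, gap, hrun, Finset.sum_range_succ', show k + (run (k + 1) ω + 1) =
    k + 1 + run (k + 1) ω by omega, Finset.sum_congr rfl fun i _ => by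
      rw [show k + (i + 1) = k + 1 + i by omega]]
  simp only [Nat.add_zero]
  omega

lemma gap_congr {k : ℕ} {ω ω' : Om R} (h : ∀ m, k ≤ m → digit m ω = digit m ω') :
    gap k ω = gap k ω' := by
  classical
  have hrun : run k ω = run k ω' := by
    rw [run, Nat.find_eq_iff]
    refine ⟨?_, fun i hi => ?_⟩
    · rw [h _ (Nat.le_add_right _ _)]
      exact Nat.find_spec (exists_not_top k ω')
    · rw [h _ (Nat.le_add_right _ _)]
      exact Nat.find_min (exists_not_top k ω') hi
  rw [gap, gap, hrun, h _ (Nat.le_add_right _ _)]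

lemma gap_copy {n j : ℕ} (hj : j < R.p n) {ω : Om R} (hω : ω.1 (n + 1) = 0) :
    gap n (shift ((j * P R n : ℕ) : ℤ) ω) =
      if j + 1 = R.p n then last R n + gap (n + 1) ω else R.a n j := by
  obtain ⟨-, hd, hm⟩ := shift_copy hj hω
  split_ifs with h
  · rw [gap_of_eq (by rw [hd]; exact h), gap_congr hm]
  · rw [gap_of_ne (by rw [hd]; exact h), hd]

/-! ### Positions -/

lemma pos_succ (n j : ℕ) : R.pos n (j + 1) = R.pos n j + R.h n + R.a n j := by
  simp only [RankOne.pos, Finset.sum_range_succ]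
  ring

lemma pos_zero (n : ℕ) : R.pos n 0 = 0 := by simp [RankOne.pos]

lemma h_succ (n : ℕ) : R.h (n + 1) = R.pos n (R.p n) := by
  rw [RankOne.h, RankOne.pos]

lemma pos_mono (n : ℕ) : Monotone (R.pos n) :=
  monotone_nat_of_le_succ fun j => by rw [pos_succ]; omega

lemma h_pos (n : ℕ) : 0 < R.h n := by
  induction n with
  | zero => simp [RankOne.h]
  | succ n ih =>
    rw [RankOne.h]
    have := Nat.mul_pos (p_pos R n) ih
    omega

lemma pos_add_le {n j : ℕ} (hj : j < R.p n) :
    R.pos n j + R.h n + R.a n j ≤ R.h (n + 1) := by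
  rw [← pos_succ, h_succ]
  exact pos_mono n hj

/-! ### Moving up -/

lemma up_iterate_floor {ω : Om R} : ∀ d {m : ℕ} (hm : m + d < roof ω),
    up^[d] ⟨(ω, m), lt_of_le_of_lt (Nat.le_add_right m d) hm⟩ =
      (⟨(ω, m + d), hm⟩ : Sky R)
  | 0, _, _ => rfl
  | d + 1, m, hm => by
    rw [Function.iterate_succ_apply', up_iterate_floor d (show m + d < roof ω by omega)]
    exact Subtype.ext (by rw [up_val, if_pos (show m + d + 1 < roof ω from hm)]; rfl)

lemma up_iterate_bottom {ω : Om R} {d : ℕ} (hd : d < roof ω) :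
    (up^[d] (bottom ω)).1 = (ω, d) := by
  have h := congrArg Subtype.val (up_iterate_floor (ω := ω) d (m := 0) (by rwa [zero_add]))
  simp only [zero_add] at h
  exact h

lemma up_iterate_roof (ω : Om R) : up^[roof ω] (bottom ω) = bottom (shift 1 ω) := by
  obtain ⟨d, hd⟩ : ∃ d, roof ω = d + 1 :=
    ⟨roof ω - 1, (Nat.succ_pred_eq_of_pos (roof_pos ω)).symm⟩
  apply Subtype.ext
  rw [hd, Function.iterate_succ_apply', up_val, up_iterate_bottom (by omega)]
  rw [if_neg (by dsimp only; omega)]
  rfl

/-- The last original floor of tower `n`. -/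
def LastFloor (n : ℕ) : Prop :=
  ∃ e : ℕ, R.h n = e + tau R n + 1 ∧ ∀ ω : Om R, ω.1 n = 0 →
    up^[e] (bottom ω) = bottom (shift ((P R n : ℤ) - 1) ω) ∧
      roof (shift ((P R n : ℤ) - 1) ω) = tau R n + 1 + gap n ω

lemma return_of {n : ℕ} (h : LastFloor (R := R) n) {ω : Om R} (hω : ω.1 n = 0) :
    up^[R.h n + gap n ω] (bottom ω) = bottom (shift (P R n : ℤ) ω) := by
  obtain ⟨e, he, htop⟩ := h
  obtain ⟨h1, h2⟩ := htop ω hω
  rw [he, show e + tau R n + 1 + gap n ω = (tau R n + 1 + gap n ω) + e by omega,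
    Function.iterate_add_apply, h1, ← h2, up_iterate_roof, shift_shift]
  congr 2
  ring

lemma reach_of {n : ℕ} (h : LastFloor (R := R) n) {ω : Om R} (hω : ω.1 (n + 1) = 0) :
    ∀ j, j < R.p n → up^[R.pos n j] (bottom ω) = bottom (shift ((j * P R n : ℕ) : ℤ) ω)
  | 0, _ => by simp [pos_zero, shift_zero]
  | j + 1, hj => by
    have hj' : j < R.p n := Nat.lt_of_succ_lt hj
    have hg := gap_copy hj' hω
    rw [if_neg (show ¬ j + 1 = R.p n by omega)] at hg
    rw [pos_succ, show R.pos n j + R.h n + R.a n j = (R.h n + R.a n j) + R.pos n j by omega,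
      Function.iterate_add_apply, reach_of h hω j hj', ← hg,
      return_of h (shift_copy hj' hω).1, shift_shift]
    congr 2
    push_cast
    ring

lemma lastFloor : ∀ n, LastFloor (R := R) n
  | 0 => by
    refine ⟨0, by simp [RankOne.h, tau], fun ω _ => ?_⟩
    have h1 : ((P R 0 : ℕ) : ℤ) - 1 = 0 := by simp [P_zero]
    rw [h1, shift_zero]
    exact ⟨rfl, by simp [roof, tau, Nat.add_comm]⟩
  | n + 1 => by
    have hih := lastFloor n
    obtain ⟨e, he, htop⟩ := hih
    obtain ⟨j, hj⟩ : ∃ j, R.p n = j + 1 :=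
      ⟨R.p n - 1, (Nat.succ_pred_eq_of_pos (p_pos R n)).symm⟩
    have hl : last R n = R.a n j := by rw [last, hj]; simp
    refine ⟨R.pos n j + e, ?_, fun ω hω => ?_⟩
    · rw [h_succ, hj, pos_succ, tau, Finset.sum_range_succ, ← tau, hl, he]
      omega
    · have hj' : j < R.p n := by omega
      obtain ⟨h1, h2⟩ := htop _ (shift_copy hj' hω).1
      have hg := gap_copy hj' hω
      rw [if_pos hj.symm] at hg
      have hz : ((j * P R n : ℕ) : ℤ) + ((P R n : ℤ) - 1) = (P R (n + 1) : ℤ) - 1 := by
        rw [P_succ, hj]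
        push_cast
        ring
      rw [shift_shift, hz] at h1 h2
      refine ⟨?_, ?_⟩
      · rw [Nat.add_comm, Function.iterate_add_apply, reach_of ⟨e, he, htop⟩ hω j hj', h1]
      · rw [h2, hg, tau, tau, Finset.sum_range_succ]
        omega

lemma reach {n j : ℕ} (hj : j < R.p n) {ω : Om R} (hω : ω.1 (n + 1) = 0) :
    up^[R.pos n j] (bottom ω) = bottom (shift ((j * P R n : ℕ) : ℤ) ω) :=
  reach_of (lastFloor n) hω j hj

/-- Floors above the last original floor of tower `n`. -/
lemma above_last (n : ℕ) : ∃ e : ℕ, R.h n = e + tau R n + 1 ∧ ∀ ω : Om R, ω.1 n = 0 →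
    roof (shift ((P R n : ℤ) - 1) ω) = tau R n + 1 + gap n ω ∧
    ∀ d, d ≤ tau R n + gap n ω →
      (up^[e + d] (bottom ω)).1 = (shift ((P R n : ℤ) - 1) ω, d) := by
  obtain ⟨e, he, htop⟩ := lastFloor (R := R) n
  refine ⟨e, he, fun ω hω => ⟨(htop ω hω).2, fun d hd => ?_⟩⟩
  rw [Nat.add_comm, Function.iterate_add_apply, (htop ω hω).1]
  exact up_iterate_bottom (by rw [(htop ω hω).2]; omega)

/-! ### Levels -/

/-- Each level is given by a residue and a floor. -/
lemma level_form : ∀ n l, l < R.h n → ∃ i m : ℕ, i < P R n ∧ (i = 0 → m = 0 → l = 0) ∧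
    ∀ ω : Om R, ω.1 n = 0 → (up^[l] (bottom ω)).1 = (shift (i : ℤ) ω, m)
  | 0, l, hl => by
    have h0 : l = 0 := by simpa [RankOne.h] using hl
    subst h0
    exact ⟨0, 0, P_pos R 0, fun _ _ => rfl, fun ω _ => by simp [shift_zero, bottom]⟩
  | n + 1, l, hl => by
    classical
    have hex : ∃ j, l < R.pos n (j + 1) := by
      refine ⟨R.p n - 1, ?_⟩
      rw [Nat.sub_add_cancel (p_pos R n), ← h_succ]
      exact hl
    obtain ⟨j, hj1, hj0⟩ : ∃ j, l < R.pos n (j + 1) ∧ R.pos n j ≤ l := by
      refine ⟨Nat.find hex, Nat.find_spec hex, ?_⟩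
      rcases Nat.eq_zero_or_pos (Nat.find hex) with h | h
      · rw [h, pos_zero]
        exact Nat.zero_le _
      · have := Nat.find_min hex (show Nat.find hex - 1 < Nat.find hex by omega)
        rw [Nat.sub_add_cancel h] at this
        omega
    have hj : j < R.p n := by
      by_contra hcon
      have := pos_mono (R := R) n (Nat.le_of_not_lt hcon)
      rw [← h_succ] at this
      omega
    obtain ⟨r, rfl⟩ := Nat.exists_eq_add_of_le hj0
    rw [pos_succ] at hj1
    have hP : j * P R n + P R n ≤ P R (n + 1) := by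
      rw [P_succ, mul_comm (P R n), ← Nat.succ_mul]
      exact Nat.mul_le_mul_right _ hj
    by_cases hr : r < R.h n
    · obtain ⟨i, m, hi, hzero, hform⟩ := level_form n r hr
      refine ⟨j * P R n + i, m, by omega, fun h hm => ?_, fun ω hω => ?_⟩
      · have hjP : j * P R n = 0 := by omega
        have := P_pos R n
        have hj' : j = 0 := (Nat.mul_eq_zero.1 hjP).resolve_right (by omega)
        have := hzero (by omega) hm
        rw [this, hj', pos_zero]
      · rw [Nat.add_comm, Function.iterate_add_apply, reach hj hω,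
          hform _ (shift_copy hj hω).1, shift_shift]
        push_cast
        rfl
    · obtain ⟨e, he, habove⟩ := above_last (R := R) n
      have := P_pos R n
      refine ⟨j * P R n + (P R n - 1), r - e, by omega, fun _ hm => by omega, fun ω hω => ?_⟩
      obtain ⟨-, hd⟩ := habove _ (shift_copy hj hω).1
      have hbd : r - e ≤ tau R n + gap n (shift ((j * P R n : ℕ) : ℤ) ω) := by
        rw [gap_copy hj hω]
        split_ifs with h
        · have : last R n = R.a n j := by rw [last, ← h]; simp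
          omega
        · omega
      rw [show R.pos n j + r = (e + (r - e)) + R.pos n j by omega, Function.iterate_add_apply,
        reach hj hω, hd _ hbd, shift_shift]
      refine Prod.ext ?_ rfl
      dsimp only
      congr 1
      rw [Nat.cast_add, Nat.cast_sub (by omega : 1 ≤ P R n)]
      push_cast
      rfl

/-- A level of tower `n`, as the image of the base. -/
def level (R : RankOne) (n l : ℕ) : Set (Sky R) := up^[l] '' base R n

lemma eq_bottom {n : ℕ} {q : Sky R} (h : q ∈ base R n) : q = bottom q.1.1 :=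
  Subtype.ext (Prod.ext rfl h.1)

/-- The levels are cylinders. -/
lemma level_eq {n l : ℕ} (hl : l < R.h n) : ∃ i m : ℕ, i < P R n ∧ (i = 0 → m = 0 → l = 0) ∧
    level R n l = {q : Sky R | q.1.1.1 n = i ∧ q.1.2 = m} := by
  obtain ⟨i, m, hi, hz, hform⟩ := level_form n l hl
  refine ⟨i, m, hi, hz, Set.ext fun q => ⟨?_, ?_⟩⟩
  · rintro ⟨b, hb, rfl⟩
    rw [eq_bottom hb]
    have := hform b.1.1 hb.2
    exact ⟨by rw [this]; exact shift_small hi hb.2, by rw [this]⟩
  · rintro ⟨h1, h2⟩
    have h0 : (shift (-(i : ℤ)) q.1.1).1 n = 0 := by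
      rw [← h1]
      exact shift_back _
    refine ⟨bottom (shift (-(i : ℤ)) q.1.1), ⟨rfl, h0⟩, Subtype.ext ?_⟩
    rw [hform _ h0, shift_shift, neg_add_cancel, shift_zero, ← h2]

lemma measurableSet_floorCyl (n i m : ℕ) :
    MeasurableSet {q : Sky R | q.1.1.1 n = i ∧ q.1.2 = m} :=
  (((measurable_coord n).comp measurable_point) (measurableSet_singleton i)).inter
    (measurable_floor (measurableSet_singleton m))

lemma measurableSet_level {n l : ℕ} (hl : l < R.h n) : MeasurableSet (level R n l) := by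
  obtain ⟨i, m, -, -, h⟩ := level_eq (R := R) hl
  rw [h]
  exact measurableSet_floorCyl n i m

/-- The base does not meet itself within `h n` steps. -/
lemma base_return {n d : ℕ} (hd : d < R.h n) {q : Sky R} (hq : q ∈ base R n)
    (h : up^[d] q ∈ base R n) : d = 0 := by
  obtain ⟨i, m, hi, hz, hform⟩ := level_form n d hd
  have hf := hform q.1.1 hq.2
  rw [← eq_bottom hq] at hf
  obtain ⟨h1, h2⟩ := h
  rw [hf] at h1 h2
  exact hz (by rw [← shift_small hi hq.2]; exact h2) h1

lemma up_iterate_injective (d : ℕ) : Function.Injective (up^[d] : Sky R → Sky R) :=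
  (Function.LeftInverse.injective down_up).iterate d

lemma level_disjoint {n l l' : ℕ} (hl : l < R.h n) (hl' : l' < R.h n) (hne : l ≠ l') :
    Disjoint (level R n l) (level R n l') := by
  rw [Set.disjoint_left]
  rintro q ⟨b, hb, rfl⟩ ⟨b', hb', hq⟩
  rcases Nat.lt_or_ge l l' with h | h
  · obtain ⟨d, rfl⟩ := Nat.exists_eq_add_of_le h.le
    rw [Function.iterate_add_apply] at hq
    have := up_iterate_injective l hq
    have := base_return (show d < R.h n by omega) hb' (by rw [this]; exact hb)
    omega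
  · obtain ⟨d, rfl⟩ := Nat.exists_eq_add_of_le h
    rw [Function.iterate_add_apply] at hq
    have := up_iterate_injective l' hq
    have := base_return (show d < R.h n by omega) hb (by rw [← this]; exact hb')
    omega

/-- The base of tower `n` is cut into the bases of the copies in tower `n+1`. -/
lemma mem_base_iff {n : ℕ} {q : Sky R} :
    q ∈ base R n ↔ ∃ j < R.p n, q ∈ level R (n + 1) (R.pos n j) := by
  constructor
  · rintro hq
    have hd := digit_lt n q.1.1
    set ω := q.1.1
    have hc := coord_succ n ω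
    rw [hq.2, zero_add] at hc
    have h0 : (shift (-((digit n ω * P R n : ℕ) : ℤ)) ω).1 (n + 1) = 0 := by
      rw [mul_comm, ← hc]
      exact shift_back _
    refine ⟨digit n ω, hd, bottom (shift (-((digit n ω * P R n : ℕ) : ℤ)) ω), ⟨rfl, h0⟩, ?_⟩
    rw [reach hd h0, shift_shift, neg_add_cancel, shift_zero, eq_bottom hq]
  · rintro ⟨j, hj, b, hb, rfl⟩
    rw [eq_bottom hb, reach hj hb.2]
    exact ⟨rfl, (shift_copy hj hb.2).1⟩

/-- Positions of copies are below the top. -/
lemma pos_lt {n j : ℕ} (hj : j < R.p n) : R.pos n j < R.h (n + 1) := by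
  have := pos_add_le (R := R) hj
  have := h_pos (R := R) n
  omega

/-- The union of the levels of tower `n`. -/
def tower (R : RankOne) (n : ℕ) : Set (Sky R) := ⋃ l ∈ range (R.h n), level R n l

lemma tower_mono (n : ℕ) : tower R n ⊆ tower R (n + 1) := by
  intro q hq
  simp only [tower, Set.mem_iUnion, exists_prop, mem_range] at hq ⊢
  obtain ⟨l, hl, b, hb, rfl⟩ := hq
  obtain ⟨j, hj, c, hc, rfl⟩ := mem_base_iff.1 hb
  refine ⟨l + R.pos n j, ?_, c, hc, Function.iterate_add_apply _ _ _ _⟩
  have := pos_add_le (R := R) hj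
  omega

/-- Original floors below the last one lie in the tower. -/
lemma cover : ∀ n i, i + 1 < P R n → ∀ m, ∀ ω : Om R, ω.1 n = 0 → m < roof (shift (i : ℤ) ω) →
    ∃ l < R.h n, (up^[l] (bottom ω)).1 = (shift (i : ℤ) ω, m)
  | 0, i, hi, _, _, _, _ => by
    rw [P_zero] at hi
    omega
  | n + 1, i, hi, m, ω, hω, hm => by
    have hP := P_pos R n
    set j := i / P R n with hjdef
    set r := i % P R n with hrdef
    have hij : i = j * P R n + r := (Nat.div_add_mod' i (P R n)).symm
    have hr : r < P R n := Nat.mod_lt _ hP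
    have hj : j < R.p n := by
      rw [hjdef, Nat.div_lt_iff_lt_mul hP, mul_comm, ← P_succ]
      omega
    have hωj := (shift_copy hj hω).1
    have hsh : shift (r : ℤ) (shift ((j * P R n : ℕ) : ℤ) ω) = shift (i : ℤ) ω := by
      rw [shift_shift, hij]
      push_cast
      rfl
    rw [← hsh] at hm ⊢
    have hle := pos_add_le (R := R) hj
    by_cases hr1 : r + 1 < P R n
    · obtain ⟨l, hl, hf⟩ := cover n r hr1 m _ hωj hm
      refine ⟨l + R.pos n j, by omega, ?_⟩
      rw [Function.iterate_add_apply, reach hj hω, hf]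
    · obtain ⟨e, he, habove⟩ := above_last (R := R) n
      obtain ⟨hroof, hd⟩ := habove _ hωj
      have hr2 : (r : ℤ) = (P R n : ℤ) - 1 := by
        have : r + 1 = P R n := by omega
        rw [← this]
        push_cast
        ring
      rw [hr2] at hm ⊢
      have hne : ¬ j + 1 = R.p n := by
        intro h
        rw [hij, P_succ, ← h, Nat.mul_add, mul_one, mul_comm (P R n)] at hi
        omega
      have hg := gap_copy hj hω
      rw [if_neg hne] at hg
      rw [hroof] at hm
      refine ⟨(e + m) + R.pos n j, by omega, ?_⟩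
      rw [Function.iterate_add_apply, reach hj hω, hd m (by omega)]

/-- Every point is eventually in the towers. -/
lemma exists_mem_tower (q : Sky R) : ∃ n₀, ∀ n, n₀ ≤ n → q ∈ tower R n := by
  obtain ⟨k, hk⟩ := q.1.1.2.2 (-1)
  refine ⟨k, fun n hn => ?_⟩
  set ω := q.1.1 with hω
  have hne : ω.1 n + 1 < P R n := by
    have h1 := ω.lt n
    by_contra hcon
    have h2 : ω.1 n + 1 = P R n := by omega
    apply hk
    rw [← ω.mod_eq hn, Int.natCast_mod, show (ω.1 n : ℤ) = -1 + (P R n : ℤ) by
      rw [← h2]; push_cast; ring, Int.add_emod, Int.emod_eq_zero_of_dvd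
        (Int.natCast_dvd_natCast.2 (P_dvd R hn)), add_zero, Int.emod_emod_of_dvd _ (dvd_refl _)]
  have h0 : (shift (-(ω.1 n : ℤ)) ω).1 n = 0 := shift_back ω
  have hsh : shift (ω.1 n : ℤ) (shift (-(ω.1 n : ℤ)) ω) = ω := by
    rw [shift_shift, neg_add_cancel, shift_zero]
  obtain ⟨l, hl, hf⟩ := cover n (ω.1 n) hne q.1.2 _ h0 (by rw [hsh]; exact q.2)
  simp only [tower, Set.mem_iUnion, exists_prop, mem_range]
  refine ⟨l, hl, bottom (shift (-(ω.1 n : ℤ)) ω), ⟨rfl, h0⟩, Subtype.ext ?_⟩
  rw [hf, hsh]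

lemma iUnion_tower : ⋃ n, tower R n = Set.univ :=
  Set.eq_univ_of_forall fun q => by
    obtain ⟨n, hn⟩ := exists_mem_tower q
    exact Set.mem_iUnion.2 ⟨n, hn n le_rfl⟩

/-- The cylinders generate. -/
lemma generateFrom_cyl : (inferInstance : MeasurableSpace (Sky R)) =
    MeasurableSpace.generateFrom
      {s | ∃ n i m : ℕ, s = {q : Sky R | q.1.1.1 n = i ∧ q.1.2 = m}} := by
  set G : Set (Set (Sky R)) :=
    {s | ∃ n i m : ℕ, s = {q : Sky R | q.1.1.1 n = i ∧ q.1.2 = m}} with hG
  refine le_antisymm ?_ (MeasurableSpace.generateFrom_le ?_)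
  · letI : MeasurableSpace (Sky R) := MeasurableSpace.generateFrom G
    have hc : ∀ n i m : ℕ, MeasurableSet
        {q : Sky R | q.1.1.1 n = i ∧ q.1.2 = m} :=
      fun n i m => MeasurableSpace.measurableSet_generateFrom ⟨n, i, m, rfl⟩
    have hfloor : Measurable fun q : Sky R => q.1.2 := by
      refine measurable_to_countable' fun m => ?_
      have : (fun q : Sky R => q.1.2) ⁻¹' {m} =
          {q : Sky R | q.1.1.1 0 = 0 ∧ q.1.2 = m} := by
        ext q
        have : q.1.1.1 0 = 0 := by
          have := q.1.1.lt 0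
          rw [P_zero] at this
          omega
        simp [this]
      rw [this]
      exact hc 0 0 m
    have hcoord : ∀ n, Measurable
        fun q : Sky R => q.1.1.1 n := by
      intro n
      refine measurable_to_countable' fun i => ?_
      have : (fun q : Sky R => q.1.1.1 n) ⁻¹' {i} =
          ⋃ m, {q : Sky R | q.1.1.1 n = i ∧ q.1.2 = m} := by
        ext q
        simp
      rw [this]
      exact MeasurableSet.iUnion fun m => hc n i m
    have hom : Measurable fun q : Sky R => q.1.1 :=
      (measurable_pi_iff.2 hcoord).subtype_mk (h := fun q => q.1.1.2)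
    have hval : Measurable fun q : Sky R => q.1 := hom.prodMk hfloor
    exact measurable_iff_comap_le.1 hval
  · rintro s ⟨n, i, m, rfl⟩
    exact measurableSet_floorCyl n i m

end Vale.Agent.P130.Lebesgue.Skyscraper
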