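import Vale.Agent.P130.Lebesgue.RankOne.Levels

/-!
# Total mass of the skyscraper and the measures of its levels
-/

noncomputable section

namespace Vale.Agent.P130.Lebesgue.Skyscraper

open Finset MeasureTheory Filter
open scoped ENNReal Topology

variable {R : RankOne} {m : Measure (Sky R)}

lemma measure_level (hm : MeasurePreserving (S R) m m)
    (hb : ∀ n, m (base R n) = (P R n : ℝ≥0∞)⁻¹) {n l : ℕ} (hl : l < R.h n) :
    m (level R n l) = (P R n : ℝ≥0∞)⁻¹ := by
  have h1 := (hm.iterate l).measure_preimage (measurableSet_level hl).nullMeasurableSet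
  change m (up^[l] ⁻¹' level R n l) = m (level R n l) at h1
  rw [level, Set.preimage_image_eq _ (up_iterate_injective l), hb] at h1
  exact h1.symm

lemma measure_tower (hm : MeasurePreserving (S R) m m)
    (hb : ∀ n, m (base R n) = (P R n : ℝ≥0∞)⁻¹) (n : ℕ) :
    m (tower R n) = ENNReal.ofReal ((R.h n : ℝ) / P R n) := by
  have hP : (0 : ℝ) < P R n := Nat.cast_pos.2 (P_pos R n)
  rw [tower, measure_biUnion_finset (fun l hl l' hl' hne =>
      level_disjoint (mem_range.1 hl) (mem_range.1 hl') hne)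
    (fun l hl => measurableSet_level (mem_range.1 hl)),
    sum_congr rfl (fun l hl => measure_level hm hb (mem_range.1 hl)),
    Finset.sum_const, card_range, nsmul_eq_mul, div_eq_mul_inv,
    ENNReal.ofReal_mul (Nat.cast_nonneg _), ENNReal.ofReal_inv_of_pos hP,
    ENNReal.ofReal_natCast, ENNReal.ofReal_natCast]

lemma ratio_succ (n : ℕ) : (R.h (n + 1) : ℝ) / P R (n + 1) = (R.h n : ℝ) / P R n *
    (1 + ((∑ j ∈ range (R.p n), R.a n j : ℕ) : ℝ) / (R.p n * R.h n : ℕ)) := by
  have h1 : (0 : ℝ) < P R n := Nat.cast_pos.2 (P_pos R n)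
  have h2 : (0 : ℝ) < R.p n := Nat.cast_pos.2 (p_pos R n)
  have h3 : (0 : ℝ) < R.h n := Nat.cast_pos.2 (h_pos n)
  rw [RankOne.h, P_succ]
  push_cast
  field_simp

lemma ratio_le
    (hsum : Summable (fun k => ((∑ j ∈ range (R.p k), R.a k j : ℕ) : ℝ) / (R.p k * R.h k : ℕ)))
    (n : ℕ) : (R.h n : ℝ) / P R n ≤
      Real.exp (∑' k, ((∑ j ∈ range (R.p k), R.a k j : ℕ) : ℝ) / (R.p k * R.h k : ℕ)) := by
  have key : (R.h n : ℝ) / P R n ≤
      Real.exp (∑ k ∈ range n, ((∑ j ∈ range (R.p k), R.a k j : ℕ) : ℝ) /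
        (R.p k * R.h k : ℕ)) := by
    induction n with
    | zero => simp [RankOne.h, P_zero]
    | succ n ih =>
      rw [ratio_succ, sum_range_succ, Real.exp_add]
      refine mul_le_mul ih ?_ (by positivity) (Real.exp_pos _).le
      rw [add_comm]
      exact Real.add_one_le_exp _
  exact key.trans (Real.exp_le_exp.2 (hsum.sum_le_tsum _ fun k _ => by positivity))

lemma tendsto_measure_tower :
    Tendsto (fun n => m (tower R n)) atTop (𝓝 (m Set.univ)) := by
  rw [← iUnion_tower]
  exact tendsto_measure_iUnion_atTop (monotone_nat_of_le_succ tower_mono)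

lemma univ_lt_top (hm : MeasurePreserving (S R) m m)
    (hb : ∀ n, m (base R n) = (P R n : ℝ≥0∞)⁻¹)
    (hsum : Summable (fun k => ((∑ j ∈ range (R.p k), R.a k j : ℕ) : ℝ) / (R.p k * R.h k : ℕ))) :
    m Set.univ < ∞ := by
  refine lt_of_le_of_lt (le_of_tendsto' tendsto_measure_tower fun n => ?_)
    (ENNReal.ofReal_lt_top (r := Real.exp
      (∑' k, ((∑ j ∈ range (R.p k), R.a k j : ℕ) : ℝ) / (R.p k * R.h k : ℕ))))
  rw [measure_tower hm hb]
  exact ENNReal.ofReal_le_ofReal (ratio_le hsum n)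

lemma univ_ne_zero (hb : ∀ n, m (base R n) = (P R n : ℝ≥0∞)⁻¹) : m Set.univ ≠ 0 := by
  intro h
  have := measure_mono_null (Set.subset_univ (base R 0)) h
  rw [hb] at this
  simp at this

lemma inv_P_le (n : ℕ) : (P R n : ℝ)⁻¹ ≤ (1 / 2) ^ n := by
  have h : (2 : ℝ) ^ n ≤ P R n := by
    induction n with
    | zero => simp [P_zero]
    | succ n ih =>
      rw [pow_succ, P_succ, Nat.cast_mul]
      exact mul_le_mul ih (by exact_mod_cast R.two_le n) zero_le_two (Nat.cast_nonneg _)
  rw [one_div, inv_pow]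
  exact inv_anti₀ (by positivity) h

lemma tendsto_inv_P : Tendsto (fun n => (P R n : ℝ)⁻¹) atTop (𝓝 0) :=
  squeeze_zero (fun n => by positivity) inv_P_le
    (tendsto_pow_atTop_nhds_zero_of_lt_one (by norm_num) (by norm_num))

end Vale.Agent.P130.Lebesgue.Skyscraper
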